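import Vale.Agent.P227.M.MM.Ifc

/-! # P254/X, block N1: the moment map of a centred, not necessarily even, regular potential.
Exact interfaces: `StmtSC → InvC → LKC → LIMC → DualC → StmtMMC` (helper618).

`E n`, `Reg`, `SelfConc`, `phiK`, `QK`, `TK`, `pd`, `hess`, `qf`, ... are those of P227/M. -/

open MeasureTheory Filter
open scoped Topology

namespace Vale.Agent.P254.X.N1

open Vale.Agent.P227.M Vale.Agent.P227.M.MM

/-- `e^{-V}` is centred -/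
def Cen {n : ℕ} (V : E n → ℝ) : Prop := ∀ i : Fin n, (∫ x : E n, x i * Real.exp (-V x)) = 0

/-- `ψ` is (the Legendre transform of) a `C^{2,1}` moment map potential of `e^{-V}`; this is
`P227.M.MM` without the field `even` -/
structure MMC {n : ℕ} (ψ V : E n → ℝ) (c C M : ℝ) : Prop where
  c_pos : 0 < c
  C2 : ContDiff ℝ 2 ψ
  lower : ∀ x v, c * ‖v‖ ^ 2 ≤ qf (hess ψ x) v
  upper : ∀ x v, qf (hess ψ x) v ≤ C * ‖v‖ ^ 2
  lip : ∀ i j x y, |hess ψ x i j - hess ψ y i j| ≤ M * ‖x - y‖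
  ma : ∀ x, V x = (∑ i, x i * pd i ψ x) - ψ x - Real.log (hess ψ x).det

/-- TARGET of N1 -/
def StmtMMC : Prop := ∀ (n : ℕ) (V : E n → ℝ) (c C : ℝ), Reg V c C → Cen V → ∃ ψ M, MMC ψ V c C M

/-- `P227.M.Lim.C21` with `even` replaced by `G 0 = 0` -/
structure C21c {n : ℕ} (a b M : ℝ) (φ : E n → ℝ) (G : E n → E n) (H : E n → E n →L[ℝ] E n) : Prop where
  grad : ∀ y, HasGradientAt φ (G y) y
  hess : ∀ y, HasFDerivAt G (H y) y
  lower : ∀ y v, a * ‖v‖ ^ 2 ≤ inner ℝ (H y v) v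
  upper : ∀ y v, inner ℝ (H y v) v ≤ b * ‖v‖ ^ 2
  lip : ∀ y y', ‖H y - H y'‖ ≤ M * ‖y - y'‖
  zero : G 0 = 0

/-- the level-`k` map, normalised at `0` (value and first derivative) -/
noncomputable def TKc {n : ℕ} (k : ℝ) (V c : E n → ℝ) (x : E n) : ℝ :=
  TK k V c x - fderiv ℝ (TK k V c) 0 x

/-- the invariant class at level `k` -/
structure ClsC {n : ℕ} (k c₀ C₀ m : ℝ) (c : E n → ℝ) : Prop where
  reg : Reg c (c₀ * (k + 1) / k) (C₀ * (k + 1) / k)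
  sc : SelfConc m c
  zero : c 0 = 0
  grad : fderiv ℝ c 0 = 0

/-- iterates of the level-`k` map, started at a quadratic -/
noncomputable def itKc {n : ℕ} (k c₀ : ℝ) (V : E n → ℝ) : ℕ → E n → ℝ
  | 0 => fun x => c₀ * (k + 1) / k / 2 * ‖x‖ ^ 2
  | i + 1 => TKc k V (itKc k c₀ V i)

/-- (owner: helper570) the class is invariant, for `k` large; `m` depends on `V` only -/
def StmtInvC : Prop := ∀ (n : ℕ), 0 < n → ∀ (V : E n → ℝ) (c₀ C₀ : ℝ), Reg V c₀ C₀ →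
  ∃ m K₀ : ℝ, 0 ≤ m ∧ 1 ≤ K₀ ∧ ∀ k : ℝ, K₀ ≤ k →
    (∀ c : E n → ℝ, ClsC k c₀ C₀ m c → ClsC k c₀ C₀ m (TKc k V c)) ∧
    (∀ c : E n → ℝ, ClsC k c₀ C₀ m c →
      Reg (phiK k c) (k / ((k + 1) * C₀)) (k / ((k + 1) * c₀)) ∧ SelfConc m (phiK k c))

/-- (owner: helper618) the quadratic start is in the class -/
def StmtStartC : Prop := ∀ (n : ℕ), 0 < n → ∀ (k c₀ C₀ m : ℝ), 0 < k → 0 < c₀ → c₀ ≤ C₀ → 0 ≤ m →
  ClsC k c₀ C₀ m (fun x : E n => c₀ * (k + 1) / k / 2 * ‖x‖ ^ 2)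

/-- (owner: helper549) descent: along the iterates the level-`k` law gets its `x`-marginal right,
and `x` is close to `∇φ_k(y)` in the mean. -/
def StmtDescC : Prop := ∀ (n : ℕ), 0 < n → ∀ (V : E n → ℝ) (c₀ C₀ m k : ℝ), Reg V c₀ C₀ → Cen V → 0 ≤ m → 1 ≤ k →
  (∀ i, ClsC k c₀ C₀ m (itKc k c₀ V i)) →
  (∀ i, Reg (phiK k (itKc k c₀ V i)) (k / ((k + 1) * C₀)) (k / ((k + 1) * c₀))) →
  ∀ ε > 0, ∃ i : ℕ, ∀ F : E n → ℝ, LipschitzWith 1 F → (∀ x, |F x| ≤ 1) →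
    |(∫ y, F (gradient (phiK k (itKc k c₀ V i)) y) * Real.exp (-phiK k (itKc k c₀ V i) y)) /
        (∫ y, Real.exp (-phiK k (itKc k c₀ V i) y))
      - (∫ x, F x * Real.exp (-V x)) / (∫ x, Real.exp (-V x))| ≤ Real.sqrt (n / (c₀ * k)) + ε

/-- (owner: helper618) lines → tensors, then translate the critical point to `0` -/
def StmtToC21c : Prop := ∀ (n : ℕ), 0 < n → ∀ (φ : E n → ℝ) (a b m : ℝ), Reg φ a b → 0 ≤ m → SelfConc m φ →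
  ∃ (y₀ : E n) (H : E n → E n →L[ℝ] E n),
    C21c a b (18 * m * b ^ ((3 : ℝ) / 2)) (fun y => φ (y + y₀)) (fun y => gradient φ (y + y₀)) H

/-- (owner: helper618) output of LK -/
def StmtLKC : Prop := ∀ (n : ℕ), 0 < n → ∀ (V : E n → ℝ) (c₀ C₀ : ℝ), Reg V c₀ C₀ → Cen V →
  ∃ M : ℝ, ∀ ε > 0, ε < 1 →
  ∃ (φ : E n → ℝ) (G : E n → E n) (H : E n → E n →L[ℝ] E n),
    C21c ((1 - ε) * C₀⁻¹) c₀⁻¹ M φ G H ∧
    (∫ y, Real.exp (-φ y)) = (∫ x, Real.exp (-V x)) ∧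
    ∀ F : E n → ℝ, LipschitzWith 1 F → (∀ x, |F x| ≤ 1) →
      |(∫ y, F (G y) * Real.exp (-φ y)) - ∫ x, F x * Real.exp (-V x)| ≤ ε

/-- (owner: helper811 / helper273) output of LIM: the `C^{2,1}` moment map in `y`-space.
Leaf to prove: `StmtLKC → StmtLIMC`. -/
def StmtLIMC : Prop := ∀ (n : ℕ), 0 < n → ∀ (V : E n → ℝ) (c₀ C₀ : ℝ), Reg V c₀ C₀ → Cen V →
  ∃ (M : ℝ) (φ : E n → ℝ) (G : E n → E n) (H : E n → E n →L[ℝ] E n),
    C21c C₀⁻¹ c₀⁻¹ M φ G H ∧ ∀ y, Real.exp (-φ y) = Real.exp (-V (G y)) * |(H y).det|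

/-- (owner: helper575) Legendre dual, and `x`-space coordinate form -/
def StmtDualC : Prop := ∀ (n : ℕ), 0 < n → ∀ (V : E n → ℝ) (c₀ C₀ M : ℝ), 0 < c₀ → 0 < C₀ → ∀ (φ : E n → ℝ) (G : E n → E n)
  (H : E n → E n →L[ℝ] E n), C21c C₀⁻¹ c₀⁻¹ M φ G H →
  (∀ y, Real.exp (-φ y) = Real.exp (-V (G y)) * |(H y).det|) →
  ∃ (ψ : E n → ℝ) (M' : ℝ), MMC ψ V c₀ C₀ M'

theorem mmc_zero {V : E 0 → ℝ} {c C : ℝ} (h : Reg V c C) : MMC (fun x => -V x) V c C 0 := by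
  have hz : ∀ v : E 0, ‖v‖ = 0 := fun v => by rw [Subsingleton.elim v 0, norm_zero]
  refine ⟨h.c_pos, ?_, fun x v => ?_, fun x v => ?_, fun i => i.elim0, fun x => ?_⟩
  · exact_mod_cast contDiff_infty.1 h.smooth.neg 2
  · simp [qf, hz]
  · simp [qf, hz]
  · simp

/-- final composition -/
theorem stmtMMC_of (h1 : StmtLIMC) (h2 : StmtDualC) : StmtMMC := by
  intro n V c C hV hcen
  rcases Nat.eq_zero_or_pos n with rfl | hn
  · exact ⟨_, _, mmc_zero hV⟩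
  · obtain ⟨M, φ, G, H, hC, hma⟩ := h1 n hn V c C hV hcen
    have hc : 0 < c := hV.c_pos
    have hC0 : 0 < C := hc.trans_le (nice_le hn hV)
    exact h2 n hn V c C M hc hC0 φ G H hC hma

end Vale.Agent.P254.X.N1
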