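import Vale.Agent.P227.M.LK.SCInv
import Vale.Agent.P227.M.LK.RegLL570
import Vale.Agent.P227.M.MM.Start102
import Vale.Agent.P254.X.N1.Ifc

/-! # P254/X/N1: the invariant class of level `k`, centred and not necessarily even potentials.

Normalisation `c 0 = 0`, `D c 0 = 0` instead of `c` even. -/

open MeasureTheory
open scoped ContDiff

namespace Vale.Agent.P254.X.N1

open Vale.Agent.P227.M Vale.Agent.P227.M.LK

variable {n : ℕ}

/-! ### Subtracting an affine function -/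

theorem contDiff_affine (r : ℝ) (A : E n →L[ℝ] ℝ) : ContDiff ℝ (⊤ : ℕ∞) (fun y : E n => r + A y) :=
  contDiff_const.add A.contDiff

theorem iteratedFDeriv_affine (r : ℝ) (A : E n →L[ℝ] ℝ) {i : ℕ} (hi : 2 ≤ i) (x : E n) :
    iteratedFDeriv ℝ i (fun y : E n => r + A y) x = 0 := by
  obtain ⟨j, rfl⟩ : ∃ j, i = j + 1 + 1 := ⟨i - 2, by omega⟩
  have h1 : fderiv ℝ (fun y : E n => r + A y) = fun _ => A := by
    funext y
    rw [fderiv_const_add, A.fderiv]
  have h2 : ‖iteratedFDeriv ℝ (j + 1 + 1) (fun y : E n => r + A y) x‖ = 0 := by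
    rw [← norm_iteratedFDeriv_fderiv, h1, iteratedFDeriv_const_of_ne (by omega)]
    simp
  exact norm_eq_zero.1 h2

theorem iteratedFDeriv_add_affine {V : E n → ℝ} (hV : ContDiff ℝ (⊤ : ℕ∞) V) (r : ℝ) (A : E n →L[ℝ] ℝ)
    {i : ℕ} (hi : 2 ≤ i) (x : E n) :
    iteratedFDeriv ℝ i (fun y => V y + (r + A y)) x = iteratedFDeriv ℝ i V x := by
  rw [iteratedFDeriv_add' hV (contDiff_affine r A), iteratedFDeriv_affine r A hi, add_zero]

theorem qf_add_affine {V : E n → ℝ} (hV : ContDiff ℝ (⊤ : ℕ∞) V) (r : ℝ) (A : E n →L[ℝ] ℝ) (x v : E n) :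
    qf (hess (fun y => V y + (r + A y)) x) v = qf (hess V x) v := by
  have h1 : ContDiff ℝ (⊤ : ℕ∞) (fun y => V y + (r + A y)) := hV.add (contDiff_affine r A)
  rw [← iteratedDeriv_two_line h1, ← iteratedDeriv_two_line hV,
    iteratedDeriv_line_zero h1, iteratedDeriv_line_zero hV, iteratedFDeriv_add_affine hV r A le_rfl]

theorem reg_add_affine {V : E n → ℝ} {c C : ℝ} (hV : Reg V c C) (r : ℝ) (A : E n →L[ℝ] ℝ) :
    Reg (fun y => V y + (r + A y)) c C where
  c_pos := hV.c_pos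
  smooth := hV.smooth.add (contDiff_affine r A)
  lower x v := by rw [qf_add_affine hV.smooth]; exact hV.lower x v
  upper x v := by rw [qf_add_affine hV.smooth]; exact hV.upper x v
  bdd k hk := by
    obtain ⟨B, hB⟩ := hV.bdd k hk
    refine ⟨B, fun x => ?_⟩
    rw [iteratedFDeriv_add_affine hV.smooth r A hk]
    exact hB x

theorem sc_add_affine {V : E n → ℝ} {c C κ : ℝ} (hV : Reg V c C) (h : SelfConc κ V) (r : ℝ)
    (A : E n →L[ℝ] ℝ) : SelfConc κ (fun y => V y + (r + A y)) := by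
  have hR := reg_add_affine hV r A
  rw [selfConc_iff hR.smooth (qf_nonneg_of_reg hR)]
  rw [selfConc_iff hV.smooth (qf_nonneg_of_reg hV)] at h
  intro x v
  rw [qf_add_affine hV.smooth, iteratedFDeriv_add_affine hV.smooth r A (by norm_num)]
  exact h x v

theorem reg_mulK {c : E n → ℝ} {a b k : ℝ} (h : Reg c a b) (hk : 0 < k) :
    Reg (fun x => k * c x) (k * a) (k * b) := by
  have := Reg.scale h hk one_ne_zero
  simpa using this

section
variable {k c0 C0 m : ℝ} {c : E n → ℝ}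

theorem reg_phiK (hk : 0 < k) (hc0 : 0 < c0) (hC0 : 0 < C0)
    (hc : Reg c (c0 * (k + 1) / k) (C0 * (k + 1) / k)) :
    Reg (phiK k c) (k / ((k + 1) * C0)) (k / ((k + 1) * c0)) := by
  have h1 := reg_mulK hc hk
  have h2 := H570.regLL n _ _ _ h1 (by positivity)
  have h3 := Reg.scale h2 (α := 1 / k) (β := k) (by positivity) hk.ne'
  refine Reg.congr_const h3 ?_ ?_ <;> field_simp

theorem sc_phiK (hSC : StmtSC) (hk : 0 < k) (hC0 : 0 < C0) (hm : 0 ≤ m)
    (hmk : m ^ 2 ≤ k) (hc : Reg c (c0 * (k + 1) / k) (C0 * (k + 1) / k)) (hs : SelfConc m c) :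
    SelfConc m (phiK k c) := by
  have hsk : 0 < √k := Real.sqrt_pos.2 hk
  have h1 := reg_mulK hc hk
  have h1s := SelfConc.mulK hc hs hk
  have h2 := H570.regLL n _ _ _ h1 (by positivity)
  have hle : m / √k ≤ 1 := by
    rw [div_le_one hsk]
    exact Real.le_sqrt_of_sq_le hmk
  have h2s := hSC n _ _ _ _ h1 (by positivity) hle h1s
  have h3 := SelfConc.scale h2 h2s (α := 1 / k) (β := k) (by positivity) hk.ne'
  have h4 : m / √k / √(1 / k) = m := by
    rw [Real.sqrt_div zero_le_one, Real.sqrt_one]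
    field_simp
  rw [h4] at h3
  exact h3

theorem reg_QK (hk : 0 < k) (hc0 : 0 < c0) (hC0 : 0 < C0)
    (hc : Reg c (c0 * (k + 1) / k) (C0 * (k + 1) / k)) :
    Reg (QK k c) (k * c0) (k * C0) := by
  have h1 := reg_phiK hk hc0 hC0 hc
  have h2 := reg_mulK h1 (k := k + 1) (by positivity)
  have h3 := H570.regLL n _ _ _ h2 (by positivity)
  have h4 := Reg.scale h3 (α := 1) (β := k) (by positivity) hk.ne'
  simp only [one_mul] at h4
  refine Reg.congr_const h4 ?_ ?_ <;> field_simp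

theorem sc_QK (hSC : StmtSC) (hk : 0 < k) (hc0 : 0 < c0) (hC0 : 0 < C0) (hm : 0 ≤ m)
    (hmk : m ^ 2 ≤ k) (hc : Reg c (c0 * (k + 1) / k) (C0 * (k + 1) / k)) (hs : SelfConc m c) :
    SelfConc (m / √k) (QK k c) := by
  have hsk : 0 < √k := Real.sqrt_pos.2 hk
  have hsk1 : 0 < √(k + 1) := Real.sqrt_pos.2 (by positivity)
  have h1 := reg_phiK hk hc0 hC0 hc
  have h1s := sc_phiK hSC hk hC0 hm hmk hc hs
  have h2 := reg_mulK h1 (k := k + 1) (by positivity)
  have h2s := SelfConc.mulK h1 h1s (k := k + 1) (by positivity)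
  have h3 := H570.regLL n _ _ _ h2 (by positivity)
  have hle : m / √(k + 1) ≤ 1 := by
    rw [div_le_one hsk1]
    exact Real.le_sqrt_of_sq_le (by linarith)
  have h3s := hSC n _ _ _ _ h2 (by positivity) hle h2s
  have h4 := Reg.scale h3 (α := 1) (β := k) (by positivity) hk.ne'
  have h4s := SelfConc.scale h3 h3s (α := 1) (β := k) (by positivity) hk.ne'
  simp only [one_mul, Real.sqrt_one, div_one] at h4 h4s
  refine SelfConc.mono h4 h4s ?_
  exact div_le_div_of_nonneg_left hm hsk (Real.sqrt_le_sqrt (by linarith))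

/-- `T c` is regular with the same bounds -/
theorem reg_TK {V : E n → ℝ} (hV : Reg V c0 C0) (hC0 : 0 < C0) (hk : 0 < k)
    (hc : Reg c (c0 * (k + 1) / k) (C0 * (k + 1) / k)) :
    Reg (TK k V c) (c0 * (k + 1) / k) (C0 * (k + 1) / k) := by
  have hc0 : 0 < c0 := hV.c_pos
  have hQ := reg_QK hk hc0 hC0 hc
  have hS : Reg (fun x => V x + QK k c x) (c0 + k * c0) (C0 + k * C0) := Reg.add hV hQ
  have hD := Reg.scale hS (α := 1 / k) (β := 1) (by positivity) one_ne_zero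
  simp only [one_smul, one_pow, mul_one] at hD
  have hTeq : TK k V c = fun x => 1 / k * (V x + QK k c x) - (V 0 + QK k c 0) / k := by
    funext x; unfold TK; ring
  rw [hTeq]
  refine Reg.congr_const (Reg.sub_const hD _) ?_ ?_ <;> field_simp <;> ring

/-- `T c` is self-concordant with the same constant -/
theorem sc_TK (hSC : StmtSC) {V : E n → ℝ} {MV : ℝ} (hV : Reg V c0 C0)
    (hC0 : 0 < C0) (hMV : 0 ≤ MV) (hVs : SelfConc MV V) (hm : 2 / 3 * MV * √(C0 / c0) ≤ m)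
    (hk : 0 < k) (hmk : m ^ 2 ≤ k) (hc : Reg c (c0 * (k + 1) / k) (C0 * (k + 1) / k))
    (hs : SelfConc m c) : SelfConc m (TK k V c) := by
  have hc0 : 0 < c0 := hV.c_pos
  have hm0 : 0 ≤ m := le_trans (by positivity) hm
  have hsk : 0 < √k := Real.sqrt_pos.2 hk
  have hQ := reg_QK hk hc0 hC0 hc
  have hQs := sc_QK hSC hk hc0 hC0 hm0 hmk hc hs
  have hS : Reg (fun x => V x + QK k c x) (c0 + k * c0) (C0 + k * C0) := Reg.add hV hQ
  have hSs : SelfConc (m / √k) (fun x => V x + QK k c x) := by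
    rw [selfConc_iff hS.smooth (qf_nonneg_of_reg hS)]
    rw [selfConc_iff hV.smooth (qf_nonneg_of_reg hV)] at hVs
    rw [selfConc_iff hQ.smooth (qf_nonneg_of_reg hQ)] at hQs
    intro x v
    rw [iteratedFDeriv_add' hV.smooth hQ.smooth, qf_add hV.smooth hQ.smooth]
    exact sum_ineq hk hm0 hMV hc0 hC0.le hm (N := ‖v‖ ^ 2) (by positivity)
      (qf_nonneg_of_reg hV x v) (hV.upper x v) (hQ.lower x v) (hVs x v) (hQs x v)
  have hD := Reg.scale hS (α := 1 / k) (β := 1) (by positivity) one_ne_zero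
  have hDs := SelfConc.scale hS hSs (α := 1 / k) (β := 1) (by positivity) one_ne_zero
  simp only [one_smul, one_pow, mul_one] at hD hDs
  have hTeq : TK k V c = fun x => 1 / k * (V x + QK k c x) - (V 0 + QK k c 0) / k := by
    funext x; unfold TK; ring
  have h4 : m / √k / √(1 / k) = m := by
    rw [Real.sqrt_div zero_le_one, Real.sqrt_one]
    field_simp
  rw [h4] at hDs
  rw [hTeq]
  exact SelfConc.sub_const hD hDs _

theorem TKc_eq (k : ℝ) (V c : E n → ℝ) :
    TKc k V c = fun x => TK k V c x + (0 + (-fderiv ℝ (TK k V c) 0) x) := by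
  funext x
  have h : TKc k V c x = TK k V c x - fderiv ℝ (TK k V c) 0 x := rfl
  rw [h]
  simp [sub_eq_add_neg]

theorem ClsC.TKc_mem (hSC : StmtSC) {V : E n → ℝ} {MV : ℝ} (hV : Reg V c0 C0)
    (hC0 : 0 < C0) (hMV : 0 ≤ MV) (hVs : SelfConc MV V) (hm : 2 / 3 * MV * √(C0 / c0) ≤ m)
    (hk : 0 < k) (hmk : m ^ 2 ≤ k) (hc : ClsC k c0 C0 m c) : ClsC k c0 C0 m (TKc k V c) := by
  have hR := reg_TK hV hC0 hk hc.reg
  have hS := sc_TK hSC hV hC0 hMV hVs hm hk hmk hc.reg hc.sc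
  have hd : Differentiable ℝ (TK k V c) := hR.smooth.differentiable (by simp)
  refine ⟨?_, ?_, ?_, ?_⟩
  · rw [TKc_eq]; exact reg_add_affine hR _ _
  · rw [TKc_eq]; exact sc_add_affine hR hS _ _
  · have h1 : TKc k V c 0 = TK k V c 0 - fderiv ℝ (TK k V c) 0 0 := rfl
    rw [h1]
    simp [TK]
  · have h1 : TKc k V c = fun x => TK k V c x - fderiv ℝ (TK k V c) 0 x := rfl
    rw [h1, fderiv_fun_sub (hd 0) (ContinuousLinearMap.differentiableAt _),
      ContinuousLinearMap.fderiv, sub_self]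

end

/-- the invariance statement used by the composition -/
theorem inv_of (hSC : StmtSC) {V : E n → ℝ} {c₀ C₀ : ℝ} (hV : Reg V c₀ C₀) (hC0 : 0 < C₀) :
    ∃ m K₀ : ℝ, 0 ≤ m ∧ 1 ≤ K₀ ∧ ∀ k : ℝ, K₀ ≤ k →
      (∀ c : E n → ℝ, ClsC k c₀ C₀ m c → ClsC k c₀ C₀ m (TKc k V c)) ∧
      (∀ c : E n → ℝ, ClsC k c₀ C₀ m c →
        Reg (phiK k c) (k / ((k + 1) * C₀)) (k / ((k + 1) * c₀)) ∧ SelfConc m (phiK k c)) := by
  obtain ⟨MV, hMV, hVs⟩ := Reg.exists_selfConc hV
  have hc0 : 0 < c₀ := hV.c_pos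
  refine ⟨2 / 3 * MV * √(C₀ / c₀), max 1 ((2 / 3 * MV * √(C₀ / c₀)) ^ 2), by positivity, le_max_left _ _,
    fun k hk => ?_⟩
  have hk0 : 0 < k := lt_of_lt_of_le one_pos ((le_max_left _ _).trans hk)
  have hmk : (2 / 3 * MV * √(C₀ / c₀)) ^ 2 ≤ k := (le_max_right _ _).trans hk
  refine ⟨fun c hc => ?_, fun c hc => ⟨?_, ?_⟩⟩
  · exact ClsC.TKc_mem hSC hV hC0 hMV hVs le_rfl hk0 hmk hc
  · exact reg_phiK hk0 hc0 hC0 hc.reg
  · exact sc_phiK hSC hk0 hC0 (by positivity) hmk hc.reg hc.sc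

/-- LEAF (a) of `Ifc` -/
theorem stmtInvC (hSC : StmtSC) : StmtInvC := fun _ hn _ _ _ hV =>
  inv_of hSC hV (hV.c_pos.trans_le (MM.nice_le hn hV))

/-- the quadratic start is in the class -/
theorem stmtStartC570 : StmtStartC := by
  intro n hn k c₀ C₀ m hk hc0 hcC hm
  have ha : 0 < c₀ * (k + 1) / k := by positivity
  have hab : c₀ * (k + 1) / k ≤ C₀ * (k + 1) / k := by gcongr
  refine ⟨(MM.Start102.nice_quad ha hab).toReg, MM.Start102.selfConc_quad ha.le hm, by simp, ?_⟩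
  rw [(MM.Start102.hasFDerivAt_quad _ 0).fderiv]
  simp

end Vale.Agent.P254.X.N1
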