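import Vale.Agent.P254.X.N1.Ifc
import Vale.Agent.P254.MC.Dual575

/-! # P254/X, block N1: the Legendre dual of the limit moment map (no evenness), `x`-space form
(helper575). -/

open MeasureTheory Filter
open scoped Topology

namespace Vale.Agent.P254.X.N1

open Vale.Agent.P227.M Vale.Agent.P227.M.MM

private theorem symm575 {n : ℕ} {a b M : ℝ} {φ : E n → ℝ} {G : E n → E n}
    {H : E n → E n →L[ℝ] E n} (h : C21c a b M φ G H) (y v w : E n) :
    inner ℝ (H y v) w = inner ℝ (H y w) v := by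
  have h1 : ∀ z, HasFDerivAt φ (innerSL ℝ (G z)) z := fun z => (h.grad z).hasFDerivAt
  have h2 : HasFDerivAt (fun z => innerSL ℝ (G z))
      ((innerSL ℝ : E n →L[ℝ] E n →L[ℝ] ℝ).comp (H y)) y :=
    (innerSL ℝ : E n →L[ℝ] E n →L[ℝ] ℝ).hasFDerivAt.comp y (h.hess y)
  have h3 := second_derivative_symmetric (𝕜 := ℝ) (f := φ) (fun z => h1 z) h2 v w
  simpa using h3

private theorem nonneg575 {n : ℕ} (hn : 0 < n) {a b M : ℝ} {φ : E n → ℝ} {G : E n → E n}
    {H : E n → E n →L[ℝ] E n} (h : C21c a b M φ G H) : 0 ≤ M := by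
  have h1 := h.lip (0 + ei ⟨0, hn⟩) 0
  rw [add_sub_cancel_left] at h1
  have h2 : ‖(ei ⟨0, hn⟩ : E n)‖ = 1 := by simp [ei]
  rw [h2, mul_one] at h1
  exact (norm_nonneg _).trans h1

/-- **the Legendre dual of the limit moment map** -/
theorem stmtDualC : StmtDualC := by
  intro n hn V c₀ C₀ M hc hC φ G H h hma
  obtain ⟨ψ, M', h1, h2, h3, h4, h5, h6⟩ := Vale.Agent.P254.MC.D575.mmc_of_dual hc hC
    (nonneg575 hn h) h.grad h.hess (fun y v w => by rw [symm575 h, real_inner_comm])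
    h.lower h.upper h.lip hma
  exact ⟨ψ, M', h1, h2, h3, h4, h5, h6⟩

end Vale.Agent.P254.X.N1
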