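import Vale.Agent.P254.X.N1.Ifc
import Vale.Agent.P227.M.MM.ToC21
import Vale.Agent.P227.M.MM.Start102
import Vale.Agent.P227.M.Dif.Grad
import Vale.Agent.P227.M.Bas

/-! # P254/X, block N1: `StmtInvC → StmtDescC → StmtLKC` (helper618). -/

open MeasureTheory Filter
open scoped Topology

namespace Vale.Agent.P254.X.N1

open Vale.Agent.P227.M Vale.Agent.P227.M.MM

theorem stmtStartC : StmtStartC := by
  intro n hn k c₀ C₀ m hk hc hcC hm
  have h := Start102.stmtStart n hn k c₀ C₀ m hk hc hcC hm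
  refine ⟨h.nice.toReg, h.sc, h.zero, ?_⟩
  rw [Start102.fderiv_quad]
  simp

namespace C21c

variable {n : ℕ} {a b M : ℝ} {φ : E n → ℝ} {G : E n → E n} {H : E n → E n →L[ℝ] E n}

theorem weaken {a' b' M' : ℝ}
    (h : C21c a b M φ G H) (ha : a' ≤ a) (hb : b ≤ b') (hM : M ≤ M') : C21c a' b' M' φ G H where
  grad := h.grad
  hess := h.hess
  lower := fun y v => (mul_le_mul_of_nonneg_right ha (sq_nonneg _)).trans (h.lower y v)
  upper := fun y v => (h.upper y v).trans (mul_le_mul_of_nonneg_right hb (sq_nonneg _))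
  lip := fun y y' => (h.lip y y').trans (mul_le_mul_of_nonneg_right hM (norm_nonneg _))
  zero := h.zero

theorem add_const (h : C21c a b M φ G H) (s : ℝ) : C21c a b M (fun y => φ y + s) G H where
  grad := fun y => by
    have h1 := (h.grad y).hasFDerivAt.add_const s
    exact h1
  hess := h.hess
  lower := h.lower
  upper := h.upper
  lip := h.lip
  zero := h.zero

end C21c

/-- lines → tensors without evenness -/
theorem c21_of_reg (n : ℕ) (hn : 0 < n) (φ : E n → ℝ) (a b m : ℝ) (hN : Reg φ a b) (hm : 0 ≤ m)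
    (hsc : SelfConc m φ) : ∃ H : E n → E n →L[ℝ] E n,
      (∀ y, HasGradientAt φ (gradient φ y) y) ∧ (∀ y, HasFDerivAt (gradient φ) (H y) y) ∧
      (∀ y v, a * ‖v‖ ^ 2 ≤ inner ℝ (H y v) v) ∧ (∀ y v, inner ℝ (H y v) v ≤ b * ‖v‖ ^ 2) ∧
      (∀ y y', ‖H y - H y'‖ ≤ 18 * m * b ^ ((3 : ℝ) / 2) * ‖y - y'‖) ∧
      (∀ y v w, inner ℝ (H y v) w = inner ℝ v (H y w)) := by
  have hφ : ContDiff ℝ 3 φ := by exact_mod_cast contDiff_infty.1 hN.smooth 3
  have hab : a ≤ b := nice_le hn hN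
  have ha : 0 < a := hN.c_pos
  have hb : 0 < b := ha.trans_le hab
  have h2 : ∀ x v, iteratedDeriv 2 (fun t : ℝ => φ (x + t • v)) 0 = qf (hess φ x) v := by
    intro x v
    rw [SC.Pol.iter2 hφ, ToC21.qf_hess hφ]
    simp
  have hlb : ∀ x v, 0 ≤ iteratedDeriv 2 (fun t : ℝ => φ (x + t • v)) 0 := by
    intro x v
    rw [h2]
    exact le_trans (by positivity) (hN.lower x v)
  have hlip := SC.Pol.hess_lipschitz_of_sc hφ hm hb.le (fun x v => by rw [h2]; exact hN.upper x v) hlb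
    (fun x v => by
      have h3 := hsc x v
      have h4 := hlb x v
      set d := iteratedDeriv 2 (fun t : ℝ => φ (x + t • v)) 0
      have h5 : (iteratedDeriv 3 (fun t : ℝ => φ (x + t • v)) 0) ^ 2 ≤ (2 * m * d ^ ((3 : ℝ) / 2)) ^ 2 := by
        rw [← sq_abs]
        exact pow_le_pow_left₀ (abs_nonneg _) h3 2
      refine h5.trans (le_of_eq ?_)
      have h6 : (d ^ ((3 : ℝ) / 2)) ^ 2 = d ^ 3 := by
        rw [← Real.rpow_natCast, ← Real.rpow_mul h4]
        norm_num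
      rw [mul_pow, h6]
      ring)
  have hd : ∀ y, HasFDerivAt (fderiv ℝ φ) (fderiv ℝ (fderiv ℝ φ) y) y := fun y =>
    ((SC.Pol.cd2 hφ).differentiable (by norm_num) y).hasFDerivAt
  refine ⟨fun y => (ToC21.rz n).comp (fderiv ℝ (fderiv ℝ φ) y), ?_, ?_, ?_, ?_, ?_, ?_⟩
  · intro y
    exact (hφ.differentiable (by norm_num) y).hasGradientAt
  · intro y
    have h3 : (gradient φ) = fun z => ToC21.rz n (fderiv ℝ φ z) := funext fun z => ToC21.gradient_eq φ z
    rw [h3]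
    exact (ToC21.rz n).hasFDerivAt.comp y (hd y)
  · intro y v
    rw [ContinuousLinearMap.comp_apply, ToC21.inner_rz, ← ToC21.qf_hess hφ]
    exact hN.lower y v
  · intro y v
    rw [ContinuousLinearMap.comp_apply, ToC21.inner_rz, ← ToC21.qf_hess hφ]
    exact hN.upper y v
  · intro y y'
    rw [← ContinuousLinearMap.comp_sub]
    have hsq : b * Real.sqrt b = b ^ ((3 : ℝ) / 2) := by
      rw [Real.sqrt_eq_rpow, show ((3 : ℝ) / 2) = 1 + 1 / 2 by norm_num, Real.rpow_add hb, Real.rpow_one]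
    have h3 := hlip.dist_le_mul y y'
    rw [dist_eq_norm, dist_eq_norm, Real.coe_toNNReal _ (by positivity)] at h3
    refine ContinuousLinearMap.opNorm_le_bound _ (by positivity) fun v => ?_
    rw [ContinuousLinearMap.comp_apply]
    refine (ToC21.norm_rz_le _).trans ?_
    refine ((fderiv ℝ (fderiv ℝ φ) y - fderiv ℝ (fderiv ℝ φ) y').le_opNorm v).trans ?_
    refine mul_le_mul_of_nonneg_right (h3.trans ?_) (norm_nonneg _)
    rw [hsq]
    have h4 : 0 ≤ m * b ^ ((3 : ℝ) / 2) * ‖y - y'‖ := by positivity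
    nlinarith
  · intro y v w
    rw [ContinuousLinearMap.comp_apply, ContinuousLinearMap.comp_apply, ToC21.inner_rz, real_inner_comm,
      ToC21.inner_rz]
    have h1 : ∀ z, HasFDerivAt φ (fderiv ℝ φ z) z := fun z => (hφ.differentiable (by norm_num) z).hasFDerivAt
    exact second_derivative_symmetric h1 (hd y) v w

theorem stmtToC21c : StmtToC21c := by
  intro n hn φ a b m hN hm hsc
  obtain ⟨H, h1, h2, h3, h4, h5, h6⟩ := c21_of_reg n hn φ a b m hN hm hsc
  have hHc : Continuous H := by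
    have : LipschitzWith (Real.toNNReal (18 * m * b ^ ((3 : ℝ) / 2))) H := by
      refine LipschitzWith.of_dist_le_mul fun x z => ?_
      rw [dist_eq_norm, dist_eq_norm]
      exact (h5 x z).trans (mul_le_mul_of_nonneg_right (Real.le_coe_toNNReal _) (norm_nonneg _))
    exact this.continuous
  have hg : Dif.GMap (gradient φ) H a b :=
    { pos := hN.c_pos, der := h2, cont := hHc, lower := h3, upper := h4, symm := h6 }
  obtain ⟨y₀, hy₀⟩ := hg.surjective 0
  have ht : ∀ y : E n, HasFDerivAt (fun z : E n => z + y₀) (ContinuousLinearMap.id ℝ (E n)) y := fun y =>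
    (hasFDerivAt_id y).add_const y₀
  refine ⟨y₀, fun y => H (y + y₀), ⟨fun y => ?_, fun y => ?_, fun y v => h3 _ v, fun y v => h4 _ v,
    fun y y' => ?_, ?_⟩⟩
  · have e1 : HasFDerivAt φ (InnerProductSpace.toDual ℝ (E n) (gradient φ (y + y₀))) (y + y₀) := (h1 (y + y₀)).hasFDerivAt
    have e2 := e1.comp y (ht y)
    rw [ContinuousLinearMap.comp_id] at e2
    exact e2
  · have e2 := (h2 (y + y₀)).comp y (ht y)
    rw [ContinuousLinearMap.comp_id] at e2
    exact e2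
  · have := h5 (y + y₀) (y' + y₀)
    rwa [add_sub_add_right_eq_sub] at this
  · show gradient φ (0 + y₀) = 0
    rw [zero_add, hy₀]

theorem itKc_cls {n : ℕ} {k c₀ C₀ m : ℝ} {V : E n → ℝ}
    (h0 : ClsC k c₀ C₀ m (fun x : E n => c₀ * (k + 1) / k / 2 * ‖x‖ ^ 2))
    (hT : ∀ c : E n → ℝ, ClsC k c₀ C₀ m c → ClsC k c₀ C₀ m (TKc k V c)) : ∀ i, ClsC k c₀ C₀ m (itKc k c₀ V i)
  | 0 => h0
  | i + 1 => hT _ (itKc_cls h0 hT i)

theorem stmtLKC_of (h1 : StmtInvC) (h3 : StmtDescC) : StmtLKC := by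
  intro n hn V c₀ C₀ hV hcen
  have hc : 0 < c₀ := hV.c_pos
  have hcC : c₀ ≤ C₀ := nice_le hn hV
  have hC : 0 < C₀ := hc.trans_le hcC
  obtain ⟨m, K₀, hm, hK₀, hinv⟩ := h1 n hn V c₀ C₀ hV
  refine ⟨18 * m * (c₀⁻¹) ^ ((3 : ℝ) / 2), fun ε hε hε1 => ?_⟩
  have hVi : Integrable (fun x => Real.exp (-V x)) := hV.integrable_exp
  have hZ : 0 < ∫ x, Real.exp (-V x) := integral_exp_pos hVi
  set Z := ∫ x, Real.exp (-V x) with hZdef
  -- choice of `k`
  set δ := ε / (2 * Z) with hδ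
  have hδ0 : 0 < δ := by positivity
  obtain ⟨k, hk⟩ : ∃ k : ℝ, K₀ ≤ k ∧ 1 / ε ≤ k ∧ (n : ℝ) / (c₀ * δ ^ 2) ≤ k :=
    ⟨max K₀ (max (1 / ε) ((n : ℝ) / (c₀ * δ ^ 2))), le_max_left _ _, (le_max_left _ _).trans (le_max_right _ _),
      (le_max_right _ _).trans (le_max_right _ _)⟩
  obtain ⟨hk1, hk2, hk3⟩ := hk
  have hk0 : 1 ≤ k := hK₀.trans hk1
  have hkpos : 0 < k := by linarith
  obtain ⟨hT, hphi⟩ := hinv k hk1
  have hcls : ∀ i, ClsC k c₀ C₀ m (itKc k c₀ V i) := itKc_cls (stmtStartC n hn k c₀ C₀ m hkpos hc hcC hm) hT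
  obtain ⟨i, hi⟩ := h3 n hn V c₀ C₀ m k hV hcen hm hk0 hcls (fun i => (hphi _ (hcls i)).1) δ hδ0
  obtain ⟨hN, hS⟩ := hphi _ (hcls i)
  set φ₀ := phiK k (itKc k c₀ V i) with hφ₀
  obtain ⟨y₀, H, hH⟩ := stmtToC21c n hn φ₀ _ _ m hN hm hS
  -- bounds
  have hkk : 1 - ε ≤ k / (k + 1) := by
    rw [le_div_iff₀ (by linarith)]
    have : 1 ≤ ε * k := by
      rw [div_le_iff₀ hε] at hk2
      linarith
    nlinarith
  have hkk1 : k / (k + 1) ≤ 1 := by
    rw [div_le_one (by linarith)]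
    linarith
  have e1 : k / ((k + 1) * C₀) = k / (k + 1) * C₀⁻¹ := by
    field_simp
  have e2 : k / ((k + 1) * c₀) = k / (k + 1) * c₀⁻¹ := by
    field_simp
  have hb1 : (1 - ε) * C₀⁻¹ ≤ k / ((k + 1) * C₀) := by
    rw [e1]
    exact mul_le_mul_of_nonneg_right hkk (by positivity)
  have hb2 : k / ((k + 1) * c₀) ≤ c₀⁻¹ := by
    rw [e2]
    exact mul_le_of_le_one_left (by positivity) hkk1
  have hb20 : 0 ≤ k / ((k + 1) * c₀) := by positivity
  have hM : 18 * m * (k / ((k + 1) * c₀)) ^ ((3 : ℝ) / 2) ≤ 18 * m * (c₀⁻¹) ^ ((3 : ℝ) / 2) :=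
    mul_le_mul_of_nonneg_left (Real.rpow_le_rpow hb20 hb2 (by norm_num)) (by positivity)
  have hH' := C21c.weaken hH hb1 hb2 hM
  have hφi : Integrable (fun x => Real.exp (-φ₀ x)) := hN.integrable_exp
  have hZ0 : 0 < ∫ x, Real.exp (-φ₀ x) := integral_exp_pos hφi
  set Z₀ := ∫ x, Real.exp (-φ₀ x) with hZ0def
  have hexp : ∀ y, Real.exp (-(φ₀ (y + y₀) + Real.log (Z₀ / Z))) = (Z / Z₀) * Real.exp (-φ₀ (y + y₀)) := by
    intro y
    rw [neg_add, Real.exp_add, ← Real.log_inv, Real.exp_log (by positivity), inv_div, mul_comm]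
  refine ⟨fun y => φ₀ (y + y₀) + Real.log (Z₀ / Z), fun y => gradient φ₀ (y + y₀), H, C21c.add_const hH' _, ?_, ?_⟩
  · simp only [hexp]
    rw [integral_const_mul, integral_add_right_eq_self (fun y => Real.exp (-φ₀ y)) y₀, ← hZ0def]
    field_simp
  · intro F hF hF1
    have h6 := hi F hF hF1
    simp only [hexp]
    have e3 : ∀ y, F (gradient φ₀ (y + y₀)) * (Z / Z₀ * Real.exp (-φ₀ (y + y₀))) =
        Z / Z₀ * (F (gradient φ₀ (y + y₀)) * Real.exp (-φ₀ (y + y₀))) := fun y => by ring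
    simp only [e3]
    rw [integral_const_mul, integral_add_right_eq_self (fun y => F (gradient φ₀ y) * Real.exp (-φ₀ y)) y₀]
    set A := ∫ y, F (gradient φ₀ y) * Real.exp (-φ₀ y) with hA
    set B := ∫ x, F x * Real.exp (-V x) with hB
    have e4 : Z / Z₀ * A - B = Z * (A / Z₀ - B / Z) := by
      field_simp
    rw [e4, abs_mul, abs_of_pos hZ]
    have hs : Real.sqrt ((n : ℝ) / (c₀ * k)) ≤ δ := by
      apply Real.sqrt_le_iff.2
      refine ⟨hδ0.le, ?_⟩
      rw [div_le_iff₀ (by positivity)]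
      rw [div_le_iff₀ (by positivity)] at hk3
      nlinarith
    have h7 : |A / Z₀ - B / Z| ≤ 2 * δ := by linarith
    calc Z * |A / Z₀ - B / Z| ≤ Z * (2 * δ) := mul_le_mul_of_nonneg_left h7 hZ.le
      _ = ε := by rw [hδ]; field_simp

end Vale.Agent.P254.X.N1
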