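import Vale.Agent.P227.M.LIM.Lim

/-! P254 stage 3, block N1-LIM: the non-even version of `P227/M/LIM`: uniformly convex `C^{2,1}`
functions with `∇φ 0 = 0`, compactness, the limit `k → ∞` and the pointwise Monge-Ampere equation. -/

open MeasureTheory Filter Topology Set
open scoped RealInnerProductSpace
open Vale.Agent.P227.M.LIM (exists_subseq_nat tendsto_of_dense hasFDerivAt_of_quad integrable_gauss
  gauss_pos bump bump_nonneg bump_le bump_lip continuous_bump monge_ampere det_pos)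

namespace Vale.Agent.P254.X.N1.LIM

section Calc


variable {E : Type*} [NormedAddCommGroup E] [InnerProductSpace ℝ E]

/-- `φ` has gradient `g` with `g 0 = 0` and Hessian `T`, `a ≤ T ≤ A` and `T` is `M`-Lipschitz. -/
structure Good0 (a A M : ℝ) (φ : E → ℝ) (g : E → E) (T : E → (E →L[ℝ] E)) : Prop where
  grad : ∀ y, HasFDerivAt φ (innerSL ℝ (g y)) y
  hess : ∀ y, HasFDerivAt g (T y) y
  zero : g 0 = 0
  lower : ∀ y v, a * ‖v‖ ^ 2 ≤ ⟪T y v, v⟫
  upper : ∀ y, ‖T y‖ ≤ A
  lip : ∀ y z, ‖T y - T z‖ ≤ M * ‖y - z‖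

namespace Good0

variable {a A M : ℝ} {φ : E → ℝ} {g : E → E} {T : E → (E →L[ℝ] E)}

theorem g_zero (h : Good0 a A M φ g T) : g 0 = 0 := h.zero

theorem A_nonneg (h : Good0 a A M φ g T) : 0 ≤ A := (norm_nonneg _).trans (h.upper 0)

theorem g_lip (h : Good0 a A M φ g T) (y z : E) : ‖g y - g z‖ ≤ A * ‖y - z‖ :=
  convex_univ.norm_image_sub_le_of_norm_hasFDerivWithin_le
    (fun x _ => (h.hess x).hasFDerivWithinAt) (fun x _ => h.upper x) (mem_univ z) (mem_univ y)

theorem norm_g_le (h : Good0 a A M φ g T) (y : E) : ‖g y‖ ≤ A * ‖y‖ := by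
  simpa [h.g_zero] using h.g_lip y 0

theorem g_taylor (h : Good0 a A M φ g T) (hM : 0 ≤ M) (y z : E) :
    ‖g z - g y - T y (z - y)‖ ≤ M * ‖z - y‖ * ‖z - y‖ := by
  refine (convex_closedBall y ‖z - y‖).norm_image_sub_le_of_norm_hasFDerivWithin_le'
    (fun x _ => (h.hess x).hasFDerivWithinAt) (fun x hx => ?_) ?_ ?_
  · refine (h.lip x y).trans ?_
    rw [Metric.mem_closedBall, dist_eq_norm] at hx
    gcongr
  · simp
  · simp [dist_eq_norm]

theorem φ_taylor (h : Good0 a A M φ g T) (y z : E) :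
    |φ z - φ y - ⟪g y, z - y⟫| ≤ A * ‖z - y‖ * ‖z - y‖ := by
  have := (convex_closedBall y ‖z - y‖).norm_image_sub_le_of_norm_hasFDerivWithin_le'
    (f := φ) (f' := fun x => innerSL ℝ (g x)) (φ := innerSL ℝ (g y)) (C := A * ‖z - y‖) (x := y) (y := z)
    (fun x _ => (h.grad x).hasFDerivWithinAt) (fun x hx => ?_) ?_ ?_
  · simpa [innerSL_apply_apply] using this
  · rw [← map_sub, innerSL_apply_norm]
    refine (h.g_lip x y).trans ?_
    rw [Metric.mem_closedBall, dist_eq_norm] at hx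
    have := h.A_nonneg
    gcongr
  · simp
  · simp [dist_eq_norm]

theorem φ_lip (h : Good0 a A M φ g T) {R : ℝ} {y z : E} (hy : ‖y‖ ≤ R) (hz : ‖z‖ ≤ R) :
    |φ y - φ z| ≤ A * R * ‖y - z‖ := by
  have hA := h.A_nonneg
  have := (convex_closedBall (0 : E) R).norm_image_sub_le_of_norm_hasFDerivWithin_le
    (f := φ) (f' := fun x => innerSL ℝ (g x)) (C := A * R) (x := z) (y := y)
    (fun x _ => (h.grad x).hasFDerivWithinAt) (fun x hx => ?_) (by simpa using hz) (by simpa using hy)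
  · simpa using this
  · rw [innerSL_apply_norm]
    refine (h.norm_g_le x).trans ?_
    have : ‖x‖ ≤ R := by simpa using hx
    gcongr

/-- strong monotonicity of the gradient -/
theorem mono (h : Good0 a A M φ g T) (y z : E) : a * ‖y - z‖ ^ 2 ≤ ⟪g y - g z, y - z⟫ := by
  set v := y - z with hv
  let f : ℝ → ℝ := fun t => ⟪g (z + t • v), v⟫ - a * ‖v‖ ^ 2 * t
  have hf : ∀ t, HasDerivAt f (⟪T (z + t • v) v, v⟫ - a * ‖v‖ ^ 2) t := by
    intro t
    have h1 : HasDerivAt (fun t : ℝ => z + t • v) v t := by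
      simpa using ((hasDerivAt_id t).smul_const v).const_add z
    have h2 := (h.hess (z + t • v)).comp_hasDerivAt t h1
    have h3 : HasDerivAt (fun t : ℝ => ⟪g (z + t • v), v⟫) ⟪T (z + t • v) v, v⟫ t := by
      have := h2.inner ℝ (hasDerivAt_const t v)
      simpa [Function.comp_def] using this
    have h4 : HasDerivAt (fun t : ℝ => a * ‖v‖ ^ 2 * t) (a * ‖v‖ ^ 2) t := by
      simpa using (hasDerivAt_id t).const_mul (a * ‖v‖ ^ 2)
    exact h3.sub h4
  have hmono : Monotone f := by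
    refine monotone_of_deriv_nonneg (fun t => (hf t).differentiableAt) (fun t => ?_)
    rw [(hf t).deriv]
    have := h.lower (z + t • v) v
    linarith
  have h01 := hmono (zero_le_one (α := ℝ))
  simp only [f, zero_smul, one_smul, add_zero, mul_zero, sub_zero, mul_one] at h01
  have hz : z + v = y := by rw [hv]; abel
  rw [hz] at h01
  rw [inner_sub_left]
  linarith

theorem norm_g_ge (h : Good0 a A M φ g T) (y z : E) : a * ‖y - z‖ ≤ ‖g y - g z‖ := by
  rcases eq_or_ne y z with rfl | hne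
  · simp
  have hpos : 0 < ‖y - z‖ := norm_pos_iff.mpr (sub_ne_zero.mpr hne)
  have h1 := h.mono y z
  have h2 := real_inner_le_norm (g y - g z) (y - z)
  have h3 : (a * ‖y - z‖) * ‖y - z‖ ≤ ‖g y - g z‖ * ‖y - z‖ := by nlinarith
  exact le_of_mul_le_mul_right h3 hpos

theorem injective (h : Good0 a A M φ g T) (ha : 0 < a) : Function.Injective g := by
  intro y z hyz
  have := h.norm_g_ge y z
  rw [hyz, sub_self, norm_zero] at this
  have h0 : ‖y - z‖ ≤ 0 := by
    by_contra hc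
    push Not at hc
    have := mul_pos ha hc
    linarith
  exact sub_eq_zero.mp (norm_le_zero_iff.mp h0)

/-- quadratic growth -/
theorem φ_ge (h : Good0 a A M φ g T) (y : E) : φ 0 + a / 2 * ‖y‖ ^ 2 ≤ φ y := by
  let f : ℝ → ℝ := fun t => φ (t • y) - a / 2 * ‖y‖ ^ 2 * t ^ 2
  have hf : ∀ t, HasDerivAt f (⟪g (t • y), y⟫ - a * ‖y‖ ^ 2 * t) t := by
    intro t
    have h1 : HasDerivAt (fun t : ℝ => t • y) y t := by
      simpa using (hasDerivAt_id t).smul_const y
    have h2 := (h.grad (t • y)).comp_hasDerivAt t h1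
    have h3 : HasDerivAt (fun t : ℝ => φ (t • y)) ⟪g (t • y), y⟫ t := by
      simpa [Function.comp_def, innerSL_apply_apply] using h2
    have h4 : HasDerivAt (fun t : ℝ => a / 2 * ‖y‖ ^ 2 * t ^ 2) (a * ‖y‖ ^ 2 * t) t := by
      have := (hasDerivAt_pow 2 t).const_mul (a / 2 * ‖y‖ ^ 2)
      refine this.congr_deriv ?_
      norm_num
      ring
    exact h3.sub h4
  have hmono : MonotoneOn f (Icc 0 1) := by
    refine monotoneOn_of_deriv_nonneg (convex_Icc 0 1)
      (fun t _ => (hf t).continuousAt.continuousWithinAt)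
      (fun t _ => (hf t).differentiableAt.differentiableWithinAt) (fun t ht => ?_)
    rw [interior_Icc] at ht
    rw [(hf t).deriv]
    have h1 := h.mono (t • y) 0
    rw [h.g_zero, sub_zero, sub_zero, norm_smul, Real.norm_eq_abs, inner_smul_right, mul_pow, sq_abs] at h1
    have ht0 : 0 < t := ht.1
    have h2 : t * (a * ‖y‖ ^ 2 * t) ≤ t * ⟪g (t • y), y⟫ := by linarith [h1]
    have h3 := le_of_mul_le_mul_left h2 ht0
    linarith
  have h01 := hmono (left_mem_Icc.mpr zero_le_one) (right_mem_Icc.mpr zero_le_one) zero_le_one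
  simp only [f, zero_smul, one_smul] at h01
  norm_num at h01
  linarith

theorem φ_le (h : Good0 a A M φ g T) (y : E) : φ y ≤ φ 0 + A * ‖y‖ ^ 2 := by
  have := h.φ_taylor 0 y
  rw [h.g_zero, inner_zero_left, sub_zero, sub_zero] at this
  have := (abs_le.mp this).2
  nlinarith

theorem continuous_g (h : Good0 a A M φ g T) : Continuous g :=
  continuous_iff_continuousAt.mpr fun y => (h.hess y).continuousAt

theorem continuous_φ (h : Good0 a A M φ g T) : Continuous φ :=
  continuous_iff_continuousAt.mpr fun y => (h.grad y).continuousAt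

theorem continuous_T (h : Good0 a A M φ g T) (hM : 0 ≤ M) : Continuous T := by
  have : LipschitzWith M.toNNReal T := LipschitzWith.of_dist_le_mul fun y z => by
    rw [dist_eq_norm, dist_eq_norm, Real.coe_toNNReal M hM]
    exact h.lip y z
  exact this.continuous

theorem surjective [FiniteDimensional ℝ E] (h : Good0 a A M φ g T) (ha : 0 < a) :
    Function.Surjective g := by
  intro x
  let f : E → ℝ := fun y => φ y - ⟪x, y⟫
  have hf : ∀ y, HasFDerivAt f (innerSL ℝ (g y) - innerSL ℝ x) y := fun y =>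
    (h.grad y).sub (innerSL ℝ x).hasFDerivAt
  have hcont : Continuous f := continuous_iff_continuousAt.mpr fun y => (hf y).continuousAt
  have hlow : ∀ y, φ 0 + (a / 4) * ‖y‖ ^ 2 - ‖x‖ ^ 2 / a ≤ f y := by
    intro y
    have h1 := h.φ_ge y
    have h2 := real_inner_le_norm x y
    have h3 : ‖x‖ * ‖y‖ ≤ ‖x‖ ^ 2 / a + a / 4 * ‖y‖ ^ 2 := by
      have : 0 ≤ (‖x‖ - a / 2 * ‖y‖) ^ 2 / a := by positivity
      have h4 : (‖x‖ - a / 2 * ‖y‖) ^ 2 / a = ‖x‖ ^ 2 / a + a / 4 * ‖y‖ ^ 2 - ‖x‖ * ‖y‖ := by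
        field_simp
        ring
      linarith
    simp only [f]
    linarith
  have htend : Tendsto f (cocompact E) atTop := by
    refine tendsto_atTop_mono hlow ?_
    have h1 : Tendsto (fun y : E => ‖y‖ ^ 2) (cocompact E) atTop :=
      (tendsto_pow_atTop two_ne_zero).comp (tendsto_norm_cocompact_atTop)
    have h2 : Tendsto (fun y : E => a / 4 * ‖y‖ ^ 2) (cocompact E) atTop :=
      h1.const_mul_atTop (by positivity)
    have h3 := tendsto_atTop_add_const_right (cocompact E) (φ 0 - ‖x‖ ^ 2 / a) h2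
    refine h3.congr fun y => ?_
    ring
  obtain ⟨y, hy⟩ := hcont.exists_forall_le htend
  have hmin : IsLocalMin f y := Filter.Eventually.of_forall hy
  have h0 := hmin.hasFDerivAt_eq_zero (hf y)
  refine ⟨y, ?_⟩
  have h4 : ∀ v, ⟪g y, v⟫ = ⟪x, v⟫ := by
    intro v
    have := congrArg (fun L => L v) h0
    simp [innerSL_apply_apply] at this
    linarith
  exact ext_inner_right ℝ h4

end Good0


end Calc

section Lim

variable {E : Type*} [NormedAddCommGroup E] [InnerProductSpace ℝ E] [FiniteDimensional ℝ E]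

variable {a A M C : ℝ}

/-- pointwise limits of `Good0` functions are `Good0` -/
theorem Good0.of_tendsto {φ : ℕ → E → ℝ} {g : ℕ → E → E} {T : ℕ → E → (E →L[ℝ] E)} (hM : 0 ≤ M)
    (h : ∀ k, Good0 a A M (φ k) (g k) (T k))
    {φ' : E → ℝ} {g' : E → E} {T' : E → (E →L[ℝ] E)}
    (h1 : ∀ y, Tendsto (fun k => φ k y) atTop (𝓝 (φ' y)))
    (h2 : ∀ y, Tendsto (fun k => g k y) atTop (𝓝 (g' y)))
    (h3 : ∀ y, Tendsto (fun k => T k y) atTop (𝓝 (T' y))) :
    Good0 a A M φ' g' T' := by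
  have hA : 0 ≤ A := (h 0).A_nonneg
  refine ⟨fun y => ?_, fun y => ?_, ?_, fun y v => ?_, fun y => ?_, fun y z => ?_⟩
  · refine hasFDerivAt_of_quad φ' (innerSL ℝ (g' y)) y A (fun z => ?_) hA
    have hl : Tendsto (fun k => ‖φ k z - φ k y - innerSL ℝ (g k y) (z - y)‖) atTop
        (𝓝 ‖φ' z - φ' y - innerSL ℝ (g' y) (z - y)‖) := by
      refine (((h1 z).sub (h1 y)).sub ?_).norm
      simp only [innerSL_apply_apply]
      exact (h2 y).inner tendsto_const_nhds
    refine le_of_tendsto' hl fun k => ?_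
    have := (h k).φ_taylor y z
    simpa [innerSL_apply_apply] using this
  · refine hasFDerivAt_of_quad g' (T' y) y M (fun z => ?_) hM
    have hl : Tendsto (fun k => ‖g k z - g k y - T k y (z - y)‖) atTop
        (𝓝 ‖g' z - g' y - T' y (z - y)‖) := by
      refine (((h2 z).sub (h2 y)).sub ?_).norm
      exact ((ContinuousLinearMap.apply ℝ E (z - y)).continuous.tendsto (T' y)).comp (h3 y)
    exact le_of_tendsto' hl fun k => (h k).g_taylor hM y z
  · have e : ∀ k, g k 0 = 0 := fun k => (h k).zero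
    have := h2 0
    simp only [e] at this
    exact (tendsto_nhds_unique this tendsto_const_nhds)
  · have hl : Tendsto (fun k => ⟪T k y v, v⟫) atTop (𝓝 ⟪T' y v, v⟫) :=
      (((ContinuousLinearMap.apply ℝ E v).continuous.tendsto (T' y)).comp (h3 y)).inner
        tendsto_const_nhds
    exact ge_of_tendsto' hl fun k => (h k).lower y v
  · exact le_of_tendsto' (h3 y).norm fun k => (h k).upper y
  · exact le_of_tendsto' ((h3 y).sub (h3 z)).norm fun k => (h k).lip y z

/-- Compactness: a sequence of `Good0` functions with `|φ k 0| ≤ C` has a subsequence that converges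
pointwise (with gradients and Hessians) to a `Good0` function. -/
theorem exists_limit {φ : ℕ → E → ℝ} {g : ℕ → E → E} {T : ℕ → E → (E →L[ℝ] E)} (hM : 0 ≤ M)
    (h : ∀ k, Good0 a A M (φ k) (g k) (T k)) (hC : ∀ k, |φ k 0| ≤ C) :
    ∃ ψ : ℕ → ℕ, StrictMono ψ ∧ ∃ (φ' : E → ℝ) (g' : E → E) (T' : E → (E →L[ℝ] E)),
      (∀ y, Tendsto (fun k => φ (ψ k) y) atTop (𝓝 (φ' y))) ∧
      (∀ y, Tendsto (fun k => g (ψ k) y) atTop (𝓝 (g' y))) ∧
      (∀ y, Tendsto (fun k => T (ψ k) y) atTop (𝓝 (T' y))) ∧ Good0 a A M φ' g' T' := by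
  have hA : 0 ≤ A := (h 0).A_nonneg
  let d : ℕ → E := TopologicalSpace.denseSeq E
  have hd : DenseRange d := TopologicalSpace.denseRange_denseSeq E
  let u : ℕ → ℕ → ℝ × E × (E →L[ℝ] E) := fun k i => (φ k (d i), g k (d i), T k (d i))
  have hu : ∀ k i, ‖u k i‖ ≤ max (C + A * ‖d i‖ ^ 2) (max (A * ‖d i‖) A) := by
    intro k i
    rw [Prod.norm_def, Prod.norm_def]
    refine max_le_max ?_ (max_le_max ((h k).norm_g_le _) ((h k).upper _))
    have h1 := (h k).φ_taylor 0 (d i)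
    rw [(h k).g_zero, inner_zero_left, sub_zero, sub_zero] at h1
    have h2 := hC k
    rw [Real.norm_eq_abs]
    show |φ k (d i)| ≤ _
    have h3 : |φ k (d i)| ≤ |φ k (d i) - φ k 0| + |φ k 0| := by
      have := abs_add_le (φ k (d i) - φ k 0) (φ k 0)
      simpa using this
    nlinarith
  obtain ⟨ψ, hψ, v, hv⟩ := exists_subseq_nat u _ hu
  have c1 : ∀ i, ∃ w, Tendsto (fun k => φ (ψ k) (d i)) atTop (𝓝 w) := fun i =>
    ⟨_, (continuous_fst.tendsto _).comp (hv i)⟩
  have c2 : ∀ i, ∃ w, Tendsto (fun k => g (ψ k) (d i)) atTop (𝓝 w) := fun i =>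
    ⟨_, ((continuous_fst.comp continuous_snd).tendsto _).comp (hv i)⟩
  have c3 : ∀ i, ∃ w, Tendsto (fun k => T (ψ k) (d i)) atTop (𝓝 w) := fun i =>
    ⟨_, ((continuous_snd.comp continuous_snd).tendsto _).comp (hv i)⟩
  have e1 : ∀ y, ∃ w, Tendsto (fun k => φ (ψ k) y) atTop (𝓝 w) := by
    refine tendsto_of_dense d hd (fun k => φ (ψ k)) (fun y => A * (‖y‖ + 1))
      (fun y => by positivity) (fun y k z hyz => ?_) c1
    rw [dist_eq_norm] at hyz ⊢
    rw [Real.norm_eq_abs]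
    refine (h (ψ k)).φ_lip (by linarith) ?_
    calc ‖z‖ = ‖y - (y - z)‖ := by congr 1; abel
      _ ≤ ‖y‖ + ‖y - z‖ := norm_sub_le _ _
      _ ≤ ‖y‖ + 1 := by linarith
  have e2 : ∀ y, ∃ w, Tendsto (fun k => g (ψ k) y) atTop (𝓝 w) :=
    tendsto_of_dense d hd (fun k => g (ψ k)) (fun _ => A) (fun _ => hA)
      (fun y k z _ => by rw [dist_eq_norm]; exact (h (ψ k)).g_lip y z) c2
  have e3 : ∀ y, ∃ w, Tendsto (fun k => T (ψ k) y) atTop (𝓝 w) :=
    tendsto_of_dense d hd (fun k => T (ψ k)) (fun _ => M) (fun _ => hM)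
      (fun y k z _ => by rw [dist_eq_norm]; exact (h (ψ k)).lip y z) c3
  choose φ' hφ' using e1
  choose g' hg' using e2
  choose T' hT' using e3
  exact ⟨ψ, hψ, φ', g', T', hφ', hg', hT',
    Good0.of_tendsto hM (fun k => h (ψ k)) hφ' hg' hT'⟩


section Int

variable [MeasurableSpace E] [BorelSpace E]

namespace Good0

variable {a A M C : ℝ} {φ : E → ℝ} {g : E → E} {T : E → (E →L[ℝ] E)}

theorem exp_le (h : Good0 a A M φ g T) (y : E) :
    Real.exp (-φ y) ≤ Real.exp (-φ 0) * Real.exp (-(a / 2 * ‖y‖ ^ 2)) := by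
  rw [← Real.exp_add]
  apply Real.exp_le_exp.mpr
  linarith [h.φ_ge y]

theorem exp_ge (h : Good0 a A M φ g T) (y : E) :
    Real.exp (-φ 0) * Real.exp (-(A * ‖y‖ ^ 2)) ≤ Real.exp (-φ y) := by
  rw [← Real.exp_add]
  apply Real.exp_le_exp.mpr
  linarith [h.φ_le y]

theorem integrable_exp (h : Good0 a A M φ g T) (ha : 0 < a) :
    Integrable (fun y => Real.exp (-φ y)) := by
  refine ((integrable_gauss (E := E) (half_pos ha)).const_mul (Real.exp (-φ 0))).mono'
    (h.continuous_φ.neg.rexp.aestronglyMeasurable) (Filter.Eventually.of_forall fun y => ?_)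
  rw [Real.norm_eq_abs, abs_of_pos (Real.exp_pos _)]
  exact h.exp_le y

/-- normalisation bounds `φ 0` -/
theorem abs_φ_zero_le (h : Good0 a A M φ g T) (ha : 0 < a) (hA : 0 < A)
    {c₁ c₂ : ℝ} (hc₁ : 0 < c₁) (h1 : c₁ ≤ ∫ y, Real.exp (-φ y)) (h2 : ∫ y, Real.exp (-φ y) ≤ c₂) :
    |φ 0| ≤ |Real.log (c₁ / ∫ y : E, Real.exp (-(a / 2 * ‖y‖ ^ 2)))| +
      |Real.log (c₂ / ∫ y : E, Real.exp (-(A * ‖y‖ ^ 2)))| := by
  have ha2 := half_pos ha
  have p1 := gauss_pos (E := E) ha2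
  have p2 := gauss_pos (E := E) hA
  have hc₂ : 0 < c₂ := lt_of_lt_of_le hc₁ (h1.trans h2)
  have u1 : ∫ y, Real.exp (-φ y) ≤ Real.exp (-φ 0) * ∫ y : E, Real.exp (-(a / 2 * ‖y‖ ^ 2)) := by
    rw [← integral_const_mul]
    exact integral_mono (h.integrable_exp ha) ((integrable_gauss ha2).const_mul _) h.exp_le
  have u2 : Real.exp (-φ 0) * ∫ y : E, Real.exp (-(A * ‖y‖ ^ 2)) ≤ ∫ y, Real.exp (-φ y) := by
    rw [← integral_const_mul]
    exact integral_mono ((integrable_gauss hA).const_mul _) (h.integrable_exp ha) h.exp_ge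
  have v1 : c₁ / ∫ y : E, Real.exp (-(a / 2 * ‖y‖ ^ 2)) ≤ Real.exp (-φ 0) := by
    rw [div_le_iff₀ p1]; exact h1.trans u1
  have v2 : Real.exp (-φ 0) ≤ c₂ / ∫ y : E, Real.exp (-(A * ‖y‖ ^ 2)) := by
    rw [le_div_iff₀ p2]; exact u2.trans h2
  have w1 := Real.log_le_log (div_pos hc₁ p1) v1
  have w2 := Real.log_le_log (Real.exp_pos _) v2
  rw [Real.log_exp] at w1 w2
  rw [abs_le]
  constructor
  · have := le_abs_self (Real.log (c₂ / ∫ y : E, Real.exp (-(A * ‖y‖ ^ 2))))
    have := abs_nonneg (Real.log (c₁ / ∫ y : E, Real.exp (-(a / 2 * ‖y‖ ^ 2))))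
    linarith
  · have := neg_abs_le (Real.log (c₁ / ∫ y : E, Real.exp (-(a / 2 * ‖y‖ ^ 2))))
    have := abs_nonneg (Real.log (c₂ / ∫ y : E, Real.exp (-(A * ‖y‖ ^ 2))))
    linarith

end Good0

/-- pointwise Monge-Ampere gives the pushforward identity for every function -/
theorem push_of_ma {a A M : ℝ} (ha : 0 < a) {φ : E → ℝ} {g : E → E} {T : E → (E →L[ℝ] E)}
    (h : Good0 a A M φ g T) {p q : E → ℝ} (hpq : ∀ y, p y = q (g y) * |(T y).det|)
    (F : E → ℝ) : ∫ y, F (g y) * p y = ∫ x, F x * q x := by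
  have himg : g '' univ = univ := by rw [image_univ]; exact (h.surjective ha).range_eq
  have := integral_image_eq_integral_abs_det_fderiv_smul volume MeasurableSet.univ
    (fun y _ => (h.hess y).hasFDerivWithinAt) (h.injective ha).injOn (fun x => F x * q x)
  rw [himg] at this
  simp only [Measure.restrict_univ, smul_eq_mul] at this
  rw [this]
  congr 1
  funext y
  rw [hpq y]
  ring

theorem integrable_push {a A M : ℝ} (ha : 0 < a) {φ : E → ℝ} {g : E → E} {T : E → (E →L[ℝ] E)}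
    (h : Good0 a A M φ g T) {p q : E → ℝ} (hpq : ∀ y, p y = q (g y) * |(T y).det|)
    (F : E → ℝ) : (Integrable fun y => F (g y) * p y) ↔ Integrable fun x => F x * q x := by
  have himg : g '' univ = univ := by rw [image_univ]; exact (h.surjective ha).range_eq
  have := integrableOn_image_iff_integrableOn_abs_det_fderiv_smul volume MeasurableSet.univ
    (fun y _ => (h.hess y).hasFDerivWithinAt) (h.injective ha).injOn (fun x => F x * q x)
  rw [himg] at this
  simp only [IntegrableOn, Measure.restrict_univ, smul_eq_mul] at this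
  rw [this]
  have e : (fun y => F (g y) * p y) = fun y => |(T y).det| * (F (g y) * q (g y)) := by
    funext y
    rw [hpq y]
    ring
  rw [e]

/-- MAIN THEOREM OF BLOCK LIM. -/
theorem exists_moment_map {a A M : ℝ} (ha : 0 < a) (hA : 0 < A) (hM : 0 ≤ M)
    {φ : ℕ → E → ℝ} {g : ℕ → E → E} {T : ℕ → E → (E →L[ℝ] E)}
    (h : ∀ k, Good0 a A M (φ k) (g k) (T k)) {c₁ c₂ : ℝ} (hc₁ : 0 < c₁)
    (h1 : ∀ k, c₁ ≤ ∫ y, Real.exp (-φ k y)) (h2 : ∀ k, ∫ y, Real.exp (-φ k y) ≤ c₂)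
    {V : E → ℝ} (hV : Continuous V)
    (hpush : ∀ (x₀ : E) (δ : ℝ), 0 < δ →
      Tendsto (fun k => ∫ y, bump x₀ δ (g k y) * Real.exp (-φ k y)) atTop
        (𝓝 (∫ x, bump x₀ δ x * Real.exp (-V x)))) :
    ∃ (φ' : E → ℝ) (g' : E → E) (T' : E → (E →L[ℝ] E)), Good0 a A M φ' g' T' ∧
      (∀ y, Real.exp (-φ' y) = Real.exp (-V (g' y)) * (T' y).det) ∧
      (∀ y, V (g' y) = φ' y + Real.log (T' y).det) ∧
      (∀ F : E → ℝ, ∫ y, F (g' y) * Real.exp (-φ' y) = ∫ x, F x * Real.exp (-V x)) ∧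
      c₁ ≤ ∫ y, Real.exp (-φ' y) ∧ ∫ y, Real.exp (-φ' y) ≤ c₂ := by
  set C := |Real.log (c₁ / ∫ y : E, Real.exp (-(a / 2 * ‖y‖ ^ 2)))| +
      |Real.log (c₂ / ∫ y : E, Real.exp (-(A * ‖y‖ ^ 2)))| with hC
  have hφ0 : ∀ k, |φ k 0| ≤ C := fun k => (h k).abs_φ_zero_le ha hA hc₁ (h1 k) (h2 k)
  obtain ⟨ψ, hψ, φ', g', T', t1, t2, t3, hG⟩ := exists_limit hM h hφ0
  have ha2 := half_pos ha
  have hdom : ∀ k y, Real.exp (-φ k y) ≤ Real.exp C * Real.exp (-(a / 2 * ‖y‖ ^ 2)) := by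
    intro k y
    refine ((h k).exp_le y).trans ?_
    have := neg_abs_le (φ k 0)
    have := hφ0 k
    gcongr
    linarith
  have e1 : Tendsto (fun k => ∫ y, Real.exp (-φ (ψ k) y)) atTop (𝓝 (∫ y, Real.exp (-φ' y))) := by
    refine tendsto_integral_of_dominated_convergence
      (fun y => Real.exp C * Real.exp (-(a / 2 * ‖y‖ ^ 2)))
      (fun k => (h (ψ k)).continuous_φ.neg.rexp.aestronglyMeasurable)
      ((integrable_gauss ha2).const_mul _) (fun k => Filter.Eventually.of_forall fun y => ?_)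
      (Filter.Eventually.of_forall fun y => ?_)
    · rw [Real.norm_eq_abs, abs_of_pos (Real.exp_pos _)]
      exact hdom (ψ k) y
    · exact (Real.continuous_exp.tendsto _).comp (t1 y).neg
  have e2 : ∀ (x₀ : E) (δ : ℝ), 0 < δ →
      Tendsto (fun k => ∫ y, bump x₀ δ (g (ψ k) y) * Real.exp (-φ (ψ k) y)) atTop
        (𝓝 (∫ y, bump x₀ δ (g' y) * Real.exp (-φ' y))) := by
    intro x₀ δ hδ
    refine tendsto_integral_of_dominated_convergence
      (fun y => δ * (Real.exp C * Real.exp (-(a / 2 * ‖y‖ ^ 2))))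
      (fun k => (((continuous_bump x₀ δ).comp (h (ψ k)).continuous_g).mul
        (h (ψ k)).continuous_φ.neg.rexp).aestronglyMeasurable)
      (((integrable_gauss ha2).const_mul _).const_mul _)
      (fun k => Filter.Eventually.of_forall fun y => ?_)
      (Filter.Eventually.of_forall fun y => ?_)
    · rw [Real.norm_eq_abs, abs_of_nonneg (mul_nonneg (bump_nonneg _ _ _) (Real.exp_pos _).le)]
      exact mul_le_mul (bump_le _ hδ.le _) (hdom (ψ k) y) (Real.exp_pos _).le hδ.le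
    · exact (((continuous_bump x₀ δ).tendsto _).comp (t2 y)).mul
        ((Real.continuous_exp.tendsto _).comp (t1 y).neg)
  have e3 : ∀ (x₀ : E) (δ : ℝ), 0 < δ →
      ∫ y, bump x₀ δ (g' y) * Real.exp (-φ' y) = ∫ x, bump x₀ δ x * Real.exp (-V x) :=
    fun x₀ δ hδ => tendsto_nhds_unique (e2 x₀ δ hδ) ((hpush x₀ δ hδ).comp hψ.tendsto_atTop)
  have hint : ∀ (x₀ : E) (δ : ℝ), 0 < δ →
      Integrable fun y => bump x₀ δ (g' y) * Real.exp (-φ' y) := by
    intro x₀ δ hδ
    refine ((hG.integrable_exp ha).const_mul δ).mono'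
      (((continuous_bump x₀ δ).comp hG.continuous_g).mul
        hG.continuous_φ.neg.rexp).aestronglyMeasurable (Filter.Eventually.of_forall fun y => ?_)
    rw [Real.norm_eq_abs, abs_of_nonneg (mul_nonneg (bump_nonneg _ _ _) (Real.exp_pos _).le)]
    exact mul_le_mul_of_nonneg_right (bump_le _ hδ.le _) (Real.exp_pos _).le
  have hma : ∀ y, Real.exp (-φ' y) = Real.exp (-V (g' y)) * |(T' y).det| := fun y =>
    monge_ampere (p := fun y => Real.exp (-φ' y)) (q := fun x => Real.exp (-V x)) ha hG.hess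
      (hG.continuous_T hM) (hG.surjective ha) hG.norm_g_ge hG.continuous_φ.neg.rexp hV.neg.rexp
      e3 hint y
  have hdet : ∀ y, 0 < (T' y).det := fun y => det_pos ha (T' y) (hG.lower y)
  refine ⟨φ', g', T', hG, fun y => ?_, fun y => ?_, fun F => ?_, ?_, ?_⟩
  · rw [hma y, abs_of_pos (hdet y)]
  · have := congrArg Real.log (hma y)
    rw [abs_of_pos (hdet y), Real.log_exp, Real.log_mul (Real.exp_pos _).ne' (hdet y).ne',
      Real.log_exp] at this
    linarith
  · exact push_of_ma ha hG hma F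
  · exact ge_of_tendsto' e1 fun k => h1 (ψ k)
  · exact le_of_tendsto' e1 fun k => h2 (ψ k)


/-- `exists_moment_map` together with the pointwise convergence of the Hessians. -/
theorem exists_moment_map_conv {a A M : ℝ} (ha : 0 < a) (hA : 0 < A) (hM : 0 ≤ M)
    {φ : ℕ → E → ℝ} {g : ℕ → E → E} {T : ℕ → E → (E →L[ℝ] E)}
    (h : ∀ k, Good0 a A M (φ k) (g k) (T k)) {c₁ c₂ : ℝ} (hc₁ : 0 < c₁)
    (h1 : ∀ k, c₁ ≤ ∫ y, Real.exp (-φ k y)) (h2 : ∀ k, ∫ y, Real.exp (-φ k y) ≤ c₂)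
    {V : E → ℝ} (hV : Continuous V)
    (hpush : ∀ (x₀ : E) (δ : ℝ), 0 < δ →
      Tendsto (fun k => ∫ y, bump x₀ δ (g k y) * Real.exp (-φ k y)) atTop
        (𝓝 (∫ x, bump x₀ δ x * Real.exp (-V x)))) :
    ∃ (ψ : ℕ → ℕ) (φ' : E → ℝ) (g' : E → E) (T' : E → (E →L[ℝ] E)), StrictMono ψ ∧
      Good0 a A M φ' g' T' ∧ (∀ y, Tendsto (fun k => T (ψ k) y) atTop (𝓝 (T' y))) ∧
      (∀ y, Real.exp (-φ' y) = Real.exp (-V (g' y)) * |(T' y).det|) := by
  set C := |Real.log (c₁ / ∫ y : E, Real.exp (-(a / 2 * ‖y‖ ^ 2)))| +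
      |Real.log (c₂ / ∫ y : E, Real.exp (-(A * ‖y‖ ^ 2)))| with hC
  have hφ0 : ∀ k, |φ k 0| ≤ C := fun k => (h k).abs_φ_zero_le ha hA hc₁ (h1 k) (h2 k)
  obtain ⟨ψ, hψ, φ', g', T', t1, t2, t3, hG⟩ := exists_limit hM h hφ0
  have ha2 := half_pos ha
  have hdom : ∀ k y, Real.exp (-φ k y) ≤ Real.exp C * Real.exp (-(a / 2 * ‖y‖ ^ 2)) := by
    intro k y
    refine ((h k).exp_le y).trans ?_
    have := neg_abs_le (φ k 0)
    have := hφ0 k
    gcongr
    linarith
  have e2 : ∀ (x₀ : E) (δ : ℝ), 0 < δ →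
      Tendsto (fun k => ∫ y, bump x₀ δ (g (ψ k) y) * Real.exp (-φ (ψ k) y)) atTop
        (𝓝 (∫ y, bump x₀ δ (g' y) * Real.exp (-φ' y))) := by
    intro x₀ δ hδ
    refine tendsto_integral_of_dominated_convergence
      (fun y => δ * (Real.exp C * Real.exp (-(a / 2 * ‖y‖ ^ 2))))
      (fun k => (((continuous_bump x₀ δ).comp (h (ψ k)).continuous_g).mul
        (h (ψ k)).continuous_φ.neg.rexp).aestronglyMeasurable)
      (((integrable_gauss ha2).const_mul _).const_mul _)
      (fun k => Filter.Eventually.of_forall fun y => ?_)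
      (Filter.Eventually.of_forall fun y => ?_)
    · rw [Real.norm_eq_abs, abs_of_nonneg (mul_nonneg (bump_nonneg _ _ _) (Real.exp_pos _).le)]
      exact mul_le_mul (bump_le _ hδ.le _) (hdom (ψ k) y) (Real.exp_pos _).le hδ.le
    · exact (((continuous_bump x₀ δ).tendsto _).comp (t2 y)).mul
        ((Real.continuous_exp.tendsto _).comp (t1 y).neg)
  have e3 : ∀ (x₀ : E) (δ : ℝ), 0 < δ →
      ∫ y, bump x₀ δ (g' y) * Real.exp (-φ' y) = ∫ x, bump x₀ δ x * Real.exp (-V x) :=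
    fun x₀ δ hδ => tendsto_nhds_unique (e2 x₀ δ hδ) ((hpush x₀ δ hδ).comp hψ.tendsto_atTop)
  have hint : ∀ (x₀ : E) (δ : ℝ), 0 < δ →
      Integrable fun y => bump x₀ δ (g' y) * Real.exp (-φ' y) := by
    intro x₀ δ hδ
    refine ((hG.integrable_exp ha).const_mul δ).mono'
      (((continuous_bump x₀ δ).comp hG.continuous_g).mul
        hG.continuous_φ.neg.rexp).aestronglyMeasurable (Filter.Eventually.of_forall fun y => ?_)
    rw [Real.norm_eq_abs, abs_of_nonneg (mul_nonneg (bump_nonneg _ _ _) (Real.exp_pos _).le)]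
    exact mul_le_mul_of_nonneg_right (bump_le _ hδ.le _) (Real.exp_pos _).le
  refine ⟨ψ, φ', g', T', hψ, hG, t3, fun y => ?_⟩
  exact monge_ampere (p := fun y => Real.exp (-φ' y)) (q := fun x => Real.exp (-V x)) ha hG.hess
      (hG.continuous_T hM) (hG.surjective ha) hG.norm_g_ge hG.continuous_φ.neg.rexp hV.neg.rexp
      e3 hint y


end Int

end Lim

section Translate

variable {E : Type*} [NormedAddCommGroup E] [InnerProductSpace ℝ E] [FiniteDimensional ℝ E]

/-- translating a uniformly convex `C^{2,1}` function by its critical point gives `Good0` -/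
theorem exists_translate {a A M : ℝ} (ha : 0 < a) {φ : E → ℝ} {g : E → E} {T : E → (E →L[ℝ] E)}
    (grad : ∀ y, HasFDerivAt φ (innerSL ℝ (g y)) y) (hess : ∀ y, HasFDerivAt g (T y) y)
    (lower : ∀ y v, a * ‖v‖ ^ 2 ≤ ⟪T y v, v⟫) (upper : ∀ y, ‖T y‖ ≤ A)
    (lip : ∀ y z, ‖T y - T z‖ ≤ M * ‖y - z‖) :
    ∃ y₀, g y₀ = 0 ∧ Good0 a A M (fun y => φ (y + y₀)) (fun y => g (y + y₀))
      (fun y => T (y + y₀)) := by
  have h : Good0 a A M (fun y => φ y - ⟪g 0, y⟫) (fun y => g y - g 0) T := by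
    refine ⟨fun y => ?_, fun y => (hess y).sub_const _, by simp, lower, upper, lip⟩
    have := (grad y).sub (innerSL ℝ (g 0)).hasFDerivAt
    rw [map_sub]
    exact this
  obtain ⟨y₀, hy₀⟩ := h.surjective ha (-g 0)
  have hz : g y₀ = 0 := by
    have : g y₀ - g 0 = -g 0 := hy₀
    rw [sub_eq_iff_eq_add] at this
    simpa using this
  refine ⟨y₀, hz, ⟨fun y => ?_, fun y => ?_, by simpa using hz, fun y v => lower _ v,
    fun y => upper _, fun y z => ?_⟩⟩
  · have h1 : HasFDerivAt (fun y : E => y + y₀) (ContinuousLinearMap.id ℝ E) y :=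
      (hasFDerivAt_id y).add_const y₀
    simpa [Function.comp_def] using (grad (y + y₀)).comp y h1
  · have h1 : HasFDerivAt (fun y : E => y + y₀) (ContinuousLinearMap.id ℝ E) y :=
      (hasFDerivAt_id y).add_const y₀
    simpa [Function.comp_def] using (hess (y + y₀)).comp y h1
  · have := lip (y + y₀) (z + y₀)
    simpa using this

end Translate

end Vale.Agent.P254.X.N1.LIM
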