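import Vale.Agent.P254.X.N1.Ifc
import Vale.Agent.P254.X.N1.Lim273

/-! # P254/X, block N1: leaf (d) `StmtLKC → StmtLIMC` (helper273). -/

open MeasureTheory Filter Set
open scoped Topology RealInnerProductSpace

namespace Vale.Agent.P254.X.N1

open Vale.Agent.P227.M Vale.Agent.P227.M.MM
open Vale.Agent.P227.M.LIM (bump bump_nonneg bump_le bump_lip)

namespace C21c

variable {n : ℕ} {a b M : ℝ} {φ : E n → ℝ} {G : E n → E n} {H : E n → E n →L[ℝ] E n}

theorem symm (h : C21c a b M φ G H) (y v w : E n) : inner ℝ (H y v) w = inner ℝ (H y w) v := by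
  have h1 : ∀ z, HasFDerivAt φ (innerSL ℝ (G z)) z := fun z => (h.grad z).hasFDerivAt
  have h2 : HasFDerivAt (fun z => innerSL ℝ (G z))
      ((innerSL ℝ : E n →L[ℝ] E n →L[ℝ] ℝ).comp (H y)) y :=
    (innerSL ℝ : E n →L[ℝ] E n →L[ℝ] ℝ).hasFDerivAt.comp y (h.hess y)
  have h3 := second_derivative_symmetric (𝕜 := ℝ) (f := φ) (fun z => h1 z) h2 v w
  simpa using h3

theorem norm_le (h : C21c a b M φ G H) (ha : 0 ≤ a) (hb : 0 ≤ b) (y : E n) : ‖H y‖ ≤ b := by
  refine ContinuousLinearMap.opNorm_le_bound _ hb fun v => ?_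
  have hpos : ∀ w, 0 ≤ inner ℝ (H y w) w := fun w => le_trans (by positivity) (h.lower y w)
  have hcs : (inner ℝ (H y v) (H y v) : ℝ) ^ 2 ≤
      inner ℝ (H y v) v * inner ℝ (H y (H y v)) (H y v) := by
    set w := H y v with hw
    have hq : ∀ t : ℝ, 0 ≤ inner ℝ (H y v) v + 2 * t * inner ℝ (H y v) w +
        t ^ 2 * inner ℝ (H y w) w := by
      intro t
      have h1 := hpos (v + t • w)
      have h2 : inner ℝ (H y (v + t • w)) (v + t • w) =
          inner ℝ (H y v) v + 2 * t * inner ℝ (H y v) w + t ^ 2 * inner ℝ (H y w) w := by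
        simp only [map_add, map_smul, inner_add_left, inner_add_right, real_inner_smul_left,
          real_inner_smul_right]
        rw [h.symm y w v]
        ring
      linarith
    have hd := discrim_le_zero (a := inner ℝ (H y w) w) (b := 2 * inner ℝ (H y v) w)
      (c := inner ℝ (H y v) v) (fun t => by have := hq t; nlinarith [this])
    unfold discrim at hd
    have : (inner ℝ (H y v) w : ℝ) = inner ℝ w w := by rw [hw]
    nlinarith
  have h1 : (inner ℝ (H y v) (H y v) : ℝ) = ‖H y v‖ ^ 2 := real_inner_self_eq_norm_sq _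
  have h2 := h.upper y v
  have h3 := h.upper y (H y v)
  rw [h1] at hcs
  have h4 : (‖H y v‖ ^ 2) ^ 2 ≤ (b * ‖v‖ ^ 2) * (b * ‖H y v‖ ^ 2) :=
    hcs.trans (mul_le_mul h2 h3 (hpos _) (by positivity))
  rcases eq_or_lt_of_le (norm_nonneg (H y v)) with h5 | h5
  · rw [← h5]; positivity
  · have h6 : ‖H y v‖ ^ 2 ≤ (b * ‖v‖) ^ 2 := by
      have h7 : 0 < ‖H y v‖ ^ 2 := by positivity
      have h8 : ‖H y v‖ ^ 2 * ‖H y v‖ ^ 2 ≤ (b * ‖v‖) ^ 2 * ‖H y v‖ ^ 2 := by nlinarith
      exact le_of_mul_le_mul_right h8 h7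
    exact (pow_le_pow_iff_left₀ (norm_nonneg _) (by positivity) two_ne_zero).1 h6

theorem good (h : C21c a b M φ G H) (ha : 0 ≤ a) (hb : 0 ≤ b) : LIM.Good0 a b M φ G H :=
  ⟨fun y => (h.grad y).hasFDerivAt, h.hess, h.zero, h.lower, h.norm_le ha hb, h.lip⟩

end C21c

theorem c21c_of_good {n : ℕ} {a b M : ℝ} {φ : E n → ℝ} {G : E n → E n} {H : E n → E n →L[ℝ] E n}
    (h : LIM.Good0 a b M φ G H) : C21c a b M φ G H where
  grad := fun y => by
    rw [hasGradientAt_iff_hasFDerivAt]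
    exact h.grad y
  hess := h.hess
  lower := h.lower
  upper := fun y v => by
    have h1 := real_inner_le_norm (H y v) v
    have h2 := (H y).le_opNorm v
    have h3 := h.upper y
    have h4 := norm_nonneg v
    calc inner ℝ (H y v) v ≤ ‖H y v‖ * ‖v‖ := h1
      _ ≤ (b * ‖v‖) * ‖v‖ := by gcongr; exact h2.trans (by gcongr)
      _ = b * ‖v‖ ^ 2 := by ring
  lip := h.lip
  zero := h.zero

theorem c21c_mono {n : ℕ} {a a' b M : ℝ} {φ : E n → ℝ} {G : E n → E n} {H : E n → E n →L[ℝ] E n}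
    (h : C21c a b M φ G H) (ha : a' ≤ a) : C21c a' b M φ G H :=
  { h with lower := fun y v => le_trans (by gcongr) (h.lower y v) }

/-- leaf (d) -/
theorem stmtLIMC_of (hLK : StmtLKC) : StmtLIMC := by
  intro n hn V c₀ C₀ hV hcen
  have hc : 0 < c₀ := hV.c_pos
  have hC : 0 < C₀ := hc.trans_le (nice_le hn hV)
  obtain ⟨M, hM⟩ := hLK n hn V c₀ C₀ hV hcen
  have hVc : Continuous V := hV.smooth.continuous
  set e : ℕ → ℝ := fun k => 1 / ((k : ℝ) + 2) with he
  have he0 : ∀ k, 0 < e k := fun k => by simp only [he]; positivity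
  have he1 : ∀ k, e k ≤ 1 / 2 := fun k => by
    simp only [he]
    apply one_div_le_one_div_of_le two_pos
    linarith [Nat.cast_nonneg (α := ℝ) k]
  have hlim : Tendsto e atTop (𝓝 0) := by
    have h1 : Tendsto (fun k : ℕ => (k : ℝ) + 2) atTop atTop :=
      tendsto_atTop_add_const_right _ _ tendsto_natCast_atTop_atTop
    exact (h1.inv_tendsto_atTop).congr fun k => by simp [he]
  choose φ G H h1 h2 h3 using fun k => hM (e k) (he0 k) (lt_of_le_of_lt (he1 k) (by norm_num))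
  have ha : 0 < (1 / 2) * C₀⁻¹ := by positivity
  have hb : 0 < c₀⁻¹ := by positivity
  have hG : ∀ k, LIM.Good0 ((1 / 2) * C₀⁻¹) c₀⁻¹ M (φ k) (G k) (H k) := fun k =>
    (c21c_mono (h1 k) (by
      have := he1 k
      have : 0 < C₀⁻¹ := by positivity
      nlinarith)).good ha.le hb.le
  have hM0 : 0 ≤ M := by
    have h4 := (hG 0).lip 0 (ei ⟨0, hn⟩)
    have h5 : ‖(ei ⟨0, hn⟩ : E n)‖ = 1 := by simp [ei]
    rw [zero_sub, norm_neg, h5, mul_one] at h4
    exact (norm_nonneg _).trans h4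
  have hZ : 0 < ∫ x, Real.exp (-V x) := by
    rw [← h2 0, integral_pos_iff_support_of_nonneg (fun y => (Real.exp_pos _).le)
      ((hG 0).integrable_exp ha)]
    have : Function.support (fun y : E n => Real.exp (-φ 0 y)) = Set.univ := by
      ext y; simp [Real.exp_ne_zero]
    rw [this]
    exact isOpen_univ.measure_pos _ Set.univ_nonempty
  have hpush : ∀ (x₀ : E n) (δ : ℝ), 0 < δ →
      Tendsto (fun k => ∫ y, bump x₀ δ (G k y) * Real.exp (-φ k y)) atTop
        (𝓝 (∫ x, bump x₀ δ x * Real.exp (-V x))) := by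
    intro x₀ δ hδ
    set s : ℝ := 1 + δ with hs
    have hs0 : 0 < s := by positivity
    have hF1 : LipschitzWith 1 (fun x => s⁻¹ * bump x₀ δ x) := by
      refine LipschitzWith.of_dist_le_mul fun x y => ?_
      rw [Real.dist_eq, ← mul_sub, abs_mul, abs_of_pos (inv_pos.mpr hs0)]
      have h4 := bump_lip x₀ δ x y
      rw [← dist_eq_norm] at h4
      calc s⁻¹ * |bump x₀ δ x - bump x₀ δ y| ≤ s⁻¹ * (s * dist x y) := by
            gcongr
            refine h4.trans ?_
            have := dist_nonneg (x := x) (y := y)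
            nlinarith
        _ = dist x y := by field_simp
        _ = ((1 : NNReal) : ℝ) * dist x y := by simp
    have hF2 : ∀ x, |s⁻¹ * bump x₀ δ x| ≤ 1 := by
      intro x
      rw [abs_mul, abs_of_pos (inv_pos.mpr hs0), inv_mul_le_iff₀ hs0,
        abs_of_nonneg (bump_nonneg _ _ _)]
      linarith [bump_le x₀ hδ.le x]
    have hk : ∀ k, |(∫ y, bump x₀ δ (G k y) * Real.exp (-φ k y)) -
        ∫ x, bump x₀ δ x * Real.exp (-V x)| ≤ s * e k := by
      intro k
      have h6 := h3 k (fun x => s⁻¹ * bump x₀ δ x) hF1 hF2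
      have e1 : (∫ y, s⁻¹ * bump x₀ δ (G k y) * Real.exp (-φ k y)) =
          s⁻¹ * ∫ y, bump x₀ δ (G k y) * Real.exp (-φ k y) := by
        rw [← integral_const_mul]; congr 1; funext y; ring
      have e2 : (∫ x, s⁻¹ * bump x₀ δ x * Real.exp (-V x)) =
          s⁻¹ * ∫ x, bump x₀ δ x * Real.exp (-V x) := by
        rw [← integral_const_mul]; congr 1; funext y; ring
      rw [e1, e2, ← mul_sub, abs_mul, abs_of_pos (inv_pos.mpr hs0), inv_mul_le_iff₀ hs0] at h6
      exact h6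
    rw [tendsto_iff_dist_tendsto_zero]
    refine squeeze_zero (fun k => dist_nonneg) (fun k => ?_) (g := fun k => s * e k) ?_
    · rw [Real.dist_eq]; exact hk k
    · simpa using hlim.const_mul s
  obtain ⟨ψ, φ', G', H', hψ, hG', hH', hma⟩ := LIM.exists_moment_map_conv ha hb hM0 hG
    hZ (fun k => (h2 k).ge) (fun k => (h2 k).le) hVc hpush
  refine ⟨M, φ', G', H', { c21c_of_good hG' with lower := fun y v => ?_ }, hma⟩
  have t1 : Tendsto (fun k => (1 - e (ψ k)) * C₀⁻¹ * ‖v‖ ^ 2) atTop (𝓝 (C₀⁻¹ * ‖v‖ ^ 2)) := by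
    have t2 : Tendsto (fun k => (1 - e (ψ k)) * C₀⁻¹ * ‖v‖ ^ 2) atTop
        (𝓝 ((1 - 0) * C₀⁻¹ * ‖v‖ ^ 2)) :=
      ((tendsto_const_nhds.sub (hlim.comp hψ.tendsto_atTop)).mul_const _).mul_const _
    simpa using t2
  have t3 : Tendsto (fun k => inner ℝ (H (ψ k) y v) v) atTop (𝓝 (inner ℝ (H' y v) v)) :=
    (((ContinuousLinearMap.apply ℝ (E n) v).continuous.tendsto (H' y)).comp (hH' y)).inner
      tendsto_const_nhds
  exact le_of_tendsto_of_tendsto' t1 t3 fun k => (h1 (ψ k)).lower y v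

end Vale.Agent.P254.X.N1
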