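import Vale.Agent.P227.M.LK.DescK

/-! # P254/X/N1: the level-`k` descent with tilts (centred, not necessarily even potentials). (helper290)

`Qa a b c`: `c` minus a linear function is in the class `Qg a b`.  For centred `V` the functional `J`
does not see linear functions, so the descent of `LK/DescK` holds for `c ↦ T k V c - ⟪·, G c⟫`, `G` arbitrary. -/

open MeasureTheory Set Filter Topology

namespace Vale.Agent.P254.X.N1.T290

open Vale.Agent.P227.M.LK.Dsc

variable {E : Type*} [NormedAddCommGroup E] [InnerProductSpace ℝ E] [FiniteDimensional ℝ E]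
  [MeasurableSpace E] [BorelSpace E]

set_option linter.unusedSectionVars false

variable {V : E → ℝ} {k a b : ℝ} {c : E → ℝ}

/-! ### tilts -/

theorem phi_tilt (k : ℝ) (c : E → ℝ) (g y : E) :
    phi k (fun x => c x + inner ℝ x g) y = phi k c (y - g) := by
  rw [phi_eq, phi_eq]
  congr 2
  refine integral_congr_ae (Eventually.of_forall fun x => ?_)
  simp only
  rw [inner_sub_right]
  congr 1
  ring

theorem Z_tilt (k : ℝ) (c : E → ℝ) (g : E) : Z k (fun x => c x + inner ℝ x g) = Z k c := by
  unfold Z
  simp only [phi_tilt]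
  exact integral_sub_right_eq_self (fun y : E => Real.exp (-phi k c y)) g

theorem phi_untilt (k : ℝ) (c : E → ℝ) (g y : E) :
    phi k c y = phi k (fun x => c x - inner ℝ x g) (y - g) := by
  have h := phi_tilt k (fun x => c x - inner ℝ x g) g y
  rw [← h]
  congr 1
  ext x
  ring

theorem Z_untilt (k : ℝ) (c : E → ℝ) (g : E) : Z k (fun x => c x - inner ℝ x g) = Z k c := by
  have h := Z_tilt k (fun x => c x - inner ℝ x g) g
  rw [← h]
  congr 1
  ext x
  ring

/-- quadratic growth after subtraction of a linear function -/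
def Qa (a b : ℝ) (c : E → ℝ) : Prop := ∃ g : E, Qg a b (fun x => c x - inner ℝ x g)

theorem measurable_inner_right (g : E) : Measurable fun x : E => (inner ℝ x g : ℝ) :=
  (continuous_id.inner continuous_const).measurable

theorem Qa.meas (h : Qa a b c) : Measurable c := by
  obtain ⟨g, hg⟩ := h
  have h1 : c = fun x => (c x - inner ℝ x g) + inner ℝ x g := by
    ext x
    ring
  rw [h1]
  exact hg.meas.add (measurable_inner_right g)

theorem Qa.int1 (hk : 0 < k) (ha : 0 < a) (h : Qa a b c) (y : E) :
    Integrable fun x : E => Real.exp (k * inner ℝ x y - k * c x) := by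
  obtain ⟨g, hg⟩ := h
  refine (hg.int1 hk ha (y - g)).congr (Eventually.of_forall fun x => ?_)
  simp only
  rw [inner_sub_right]
  congr 1
  ring

theorem Qa.int3 (hk : 0 < k) (ha : 0 < a) (hb : 0 < b) (h : Qa a b c) :
    Integrable fun y : E => Real.exp (-phi k c y) := by
  obtain ⟨g, hg⟩ := h
  refine ((hg.int3 hk ha hb).comp_sub_right g).congr (Eventually.of_forall fun y => ?_)
  simp only
  rw [phi_untilt k c g y]

theorem Qa.Z_pos (hk : 0 < k) (ha : 0 < a) (hb : 0 < b) (h : Qa a b c) : 0 < Z k c :=
  integral_exp_pos (h.int3 hk ha hb)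

/-- the key descent inequality for the mass -/
theorem mass_le (hk : 0 < k) (ha : 0 < a) (hb : 0 < b) (h : Qg a b c) (hT : Qa a b (T0 k V c))
    (hVi : Integrable fun x : E => Real.exp (-V x)) (hV1 : ∫ x : E, Real.exp (-V x) = 1) :
    (1 + 1 / k) * Real.log (Z k c) ≤ Real.log (Z k (T0 k V c)) := by
  have hZ := h.Z_pos hk ha hb
  have hZ' := hT.Z_pos hk ha hb
  -- the function `t`
  have hkT : ∀ x, k * T0 k V c x = V x + Q k c x := fun x => by
    unfold T0
    field_simp
  have hMV : Measurable V := by
    have h1 : V = fun x => k * T0 k V c x - Q k c x := by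
      ext x
      rw [hkT]
      ring
    rw [h1]
    exact (hT.meas.const_mul k).sub (measurable_Q h.meas)
  have hFm : Measurable fun p : E × E => Real.exp (k * inner ℝ p.1 p.2 - k * T0 k V c p.1 - (k + 1) * phi k c p.2) := by
    have : Measurable fun p : E × E => (inner ℝ p.1 p.2 : ℝ) := (continuous_fst.inner continuous_snd).measurable
    exact Real.measurable_exp.comp (((this.const_mul k).sub ((hT.meas.comp measurable_fst).const_mul k)).sub
      (((measurable_phi h.meas).comp measurable_snd).const_mul (k + 1)))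
  have hinner : ∀ x : E, ∫ y : E, Real.exp (k * inner ℝ x y - k * T0 k V c x - (k + 1) * phi k c y) = Real.exp (-V x) := by
    intro x
    have h1 : (fun y : E => Real.exp (k * inner ℝ x y - k * T0 k V c x - (k + 1) * phi k c y))
        = fun y : E => Real.exp (k * inner ℝ x y - (k + 1) * phi k c y) * Real.exp (-(k * T0 k V c x)) := by
      ext y
      rw [← Real.exp_add]
      congr 1
      ring
    rw [h1, integral_mul_const, ← exp_Q (h.int2 hk ha hb x), ← Real.exp_add, hkT]
    congr 1
    ring
  have hFi : Integrable (fun p : E × E => Real.exp (k * inner ℝ p.1 p.2 - k * T0 k V c p.1 - (k + 1) * phi k c p.2))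
      ((volume : Measure E).prod volume) := by
    rw [integrable_prod_iff hFm.aestronglyMeasurable]
    refine ⟨Eventually.of_forall fun x => ?_, ?_⟩
    · have := (h.int2 hk ha hb x).mul_const (Real.exp (-(k * T0 k V c x)))
      refine this.congr (Eventually.of_forall fun y => ?_)
      simp only
      rw [← Real.exp_add]
      congr 1
      ring
    · refine hVi.congr (Eventually.of_forall fun x => ?_)
      simp only [Real.norm_eq_abs, abs_of_pos (Real.exp_pos _)]
      exact (hinner x).symm
  have hswap := integral_integral_swap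
    (f := fun (x y : E) => Real.exp (k * inner ℝ x y - k * T0 k V c x - (k + 1) * phi k c y)) hFi
  simp only [hinner] at hswap
  rw [hV1] at hswap
  have hy : ∀ y : E, ∫ x : E, Real.exp (k * inner ℝ x y - k * T0 k V c x - (k + 1) * phi k c y)
      = Real.exp (-phi k c y) * Real.exp (k * (phi k (T0 k V c) y - phi k c y)) := by
    intro y
    have h1 : (fun x : E => Real.exp (k * inner ℝ x y - k * T0 k V c x - (k + 1) * phi k c y))
        = fun x : E => Real.exp (k * inner ℝ x y - k * T0 k V c x) * Real.exp (-((k + 1) * phi k c y)) := by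
      ext x
      rw [← Real.exp_add]
      congr 1
    rw [h1, integral_mul_const, ← exp_phi hk (hT.int1 hk ha y), ← Real.exp_add, ← Real.exp_add]
    congr 1
    ring
  have hti : Integrable fun y : E => Real.exp (-phi k c y) * Real.exp (k * (phi k (T0 k V c) y - phi k c y)) := by
    refine hFi.integral_prod_right.congr (Eventually.of_forall fun y => ?_)
    exact hy y
  have ht1 : ∫ y : E, Real.exp (-phi k c y) * Real.exp (k * (phi k (T0 k V c) y - phi k c y)) = 1 := by
    rw [hswap]
    congr 1
    ext y
    exact (hy y).symm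
  -- pointwise inequality
  have hpt : ∀ y : E, Real.exp ((1 / k) * Real.log (Z k c)) * ((1 + 1 / k) * Real.exp (-phi k c y)
      - (Z k c / k) * (Real.exp (-phi k c y) * Real.exp (k * (phi k (T0 k V c) y - phi k c y))))
      ≤ Real.exp (-phi k (T0 k V c) y) := by
    intro y
    set t := Real.exp (k * (phi k (T0 k V c) y - phi k c y)) with ht
    have htp : 0 < t := Real.exp_pos _
    have h1 : Real.exp (-phi k (T0 k V c) y) = Real.exp ((1 / k) * Real.log (Z k c)) * (Real.exp (-phi k c y)
        * Real.exp (-(1 / k) * Real.log (t * Z k c))) := by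
      rw [Real.log_mul htp.ne' hZ.ne', ht, Real.log_exp, ← Real.exp_add, ← Real.exp_add]
      congr 1
      field_simp
      ring
    rw [h1]
    refine mul_le_mul_of_nonneg_left ?_ (Real.exp_pos _).le
    have h2 : 1 - (1 / k) * (t * Z k c - 1) ≤ Real.exp (-(1 / k) * Real.log (t * Z k c)) := by
      have h3 := Real.add_one_le_exp (-(1 / k) * Real.log (t * Z k c))
      have h4 := Real.log_le_sub_one_of_pos (mul_pos htp hZ)
      have h5 := mul_le_mul_of_nonneg_left h4 (by positivity : 0 ≤ 1 / k)
      linarith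
    calc (1 + 1 / k) * Real.exp (-phi k c y) - Z k c / k * (Real.exp (-phi k c y) * t)
        = Real.exp (-phi k c y) * (1 - (1 / k) * (t * Z k c - 1)) := by ring
      _ ≤ _ := mul_le_mul_of_nonneg_left h2 (Real.exp_pos _).le
  have hint := integral_mono ((((h.int3 hk ha hb).const_mul (1 + 1 / k)).sub (hti.const_mul (Z k c / k))).const_mul
    (Real.exp ((1 / k) * Real.log (Z k c)))) (hT.int3 hk ha hb) hpt
  have hlhs : ∫ y : E, Real.exp ((1 / k) * Real.log (Z k c)) * ((1 + 1 / k) * Real.exp (-phi k c y)
      - (Z k c / k) * (Real.exp (-phi k c y) * Real.exp (k * (phi k (T0 k V c) y - phi k c y))))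
      = Real.exp ((1 / k) * Real.log (Z k c)) * Z k c := by
    rw [integral_const_mul, integral_sub ((h.int3 hk ha hb).const_mul _) (hti.const_mul _), integral_const_mul,
      integral_const_mul, ht1]
    unfold Z
    ring
  have hfin : Real.exp ((1 / k) * Real.log (Z k c)) * Z k c ≤ Z k (T0 k V c) := by
    rw [← hlhs]
    exact hint
  have := Real.log_le_log (by positivity) hfin
  rw [Real.log_mul (Real.exp_pos _).ne' hZ.ne', Real.log_exp] at this
  linarith

/-! ### centred targets -/

/-- hypotheses on the target potential: `Pot` and centred -/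
structure PotC (V : E → ℝ) : Prop extends Pot V where
  cen : ∀ g : E, ∫ x : E, inner ℝ x g * Real.exp (-V x) = 0

theorem int_inner (hV : Pot V) (g : E) : Integrable fun x : E => inner ℝ x g * Real.exp (-V x) := by
  have h3 : Integrable fun x : E => ‖g‖ * (Real.exp (-V x) + ‖x‖ ^ 2 * Real.exp (-V x)) :=
    (hV.int0.add hV.int2).const_mul _
  refine h3.mono' ((measurable_inner_right g).mul (Real.measurable_exp.comp hV.meas.neg)).aestronglyMeasurable
    (Eventually.of_forall fun x => ?_)
  rw [Real.norm_eq_abs, abs_mul, abs_of_pos (Real.exp_pos _)]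
  have h4 : |(inner ℝ x g : ℝ)| ≤ ‖g‖ * (1 + ‖x‖ ^ 2) := by
    have h5 := abs_real_inner_le_norm x g
    have h6 : ‖x‖ ≤ 1 + ‖x‖ ^ 2 := by nlinarith [sq_nonneg (‖x‖ - 1), norm_nonneg x]
    calc |(inner ℝ x g : ℝ)| ≤ ‖x‖ * ‖g‖ := h5
      _ ≤ (1 + ‖x‖ ^ 2) * ‖g‖ := by gcongr
      _ = _ := by ring
  calc |(inner ℝ x g : ℝ)| * Real.exp (-V x) ≤ (‖g‖ * (1 + ‖x‖ ^ 2)) * Real.exp (-V x) := by gcongr
    _ = _ := by ring

theorem Qa.integrable (ha : 0 < a) (hb : 0 < b) (h : Qa a b c) (hV : Pot V) :
    Integrable fun x : E => c x * Real.exp (-V x) := by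
  obtain ⟨g, hg⟩ := h
  refine ((hg.integrable ha hb hV).add (int_inner hV g)).congr (Eventually.of_forall fun x => ?_)
  simp only [Pi.add_apply]
  ring

theorem J_tilt (k : ℝ) (hV : PotC V) (hci : Integrable fun x : E => c x * Real.exp (-V x)) (g : E) :
    J k V (fun x => c x + inner ℝ x g) = J k V c := by
  unfold J
  rw [Z_tilt]
  have h1 : (fun x : E => (c x + inner ℝ x g) * Real.exp (-V x))
      = fun x => c x * Real.exp (-V x) + inner ℝ x g * Real.exp (-V x) := by
    ext x
    ring
  rw [h1, integral_add hci (int_inner hV.toPot g), hV.cen g, add_zero]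

theorem J_untilt (k : ℝ) (hV : PotC V) (hci : Integrable fun x : E => c x * Real.exp (-V x)) (g : E) :
    J k V (fun x => c x - inner ℝ x g) = J k V c := by
  have h := J_tilt k hV hci (-g)
  rw [← h]
  congr 1
  ext x
  rw [inner_neg_right]
  ring

/-- **descent** -/
theorem descent (hk : 0 < k) (ha : 0 < a) (hb : 0 < b) (hV : Pot V) (h : Qg a b c) (hT : Qa a b (T0 k V c)) :
    J k V (T0 k V c) ≤ J k V c - KL k V c / k := by
  have hVi := hV.int0
  have hV1 := hV.one
  have hVV := hV.intV
  have hkT : ∀ x, k * T0 k V c x = V x + Q k c x := fun x => by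
    unfold T0
    field_simp
  have hci := h.integrable ha hb hV
  have hTi := hT.integrable ha hb hV
  have hQi : Integrable fun x : E => Q k c x * Real.exp (-V x) := by
    refine ((hTi.const_mul k).sub hVV).congr (Eventually.of_forall fun x => ?_)
    simp only [Pi.sub_apply]
    rw [← mul_assoc, hkT]
    ring
  have e1 : ∫ x : E, T0 k V c x * Real.exp (-V x)
      = (1 / k) * ((∫ x : E, V x * Real.exp (-V x)) + ∫ x : E, Q k c x * Real.exp (-V x)) := by
    rw [← integral_add hVV hQi, ← integral_const_mul]
    congr 1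
    ext x
    unfold T0
    field_simp
  have e2 : KL k V c = k * (∫ x : E, c x * Real.exp (-V x)) - (∫ x : E, Q k c x * Real.exp (-V x))
      + Real.log (Z k c) - ∫ x : E, V x * Real.exp (-V x) := by
    unfold KL
    have h1 : (fun x : E => (W k c x - V x) * Real.exp (-V x)) = fun x => ((k * (c x * Real.exp (-V x))
        - Q k c x * Real.exp (-V x)) + Real.log (Z k c) * Real.exp (-V x)) - V x * Real.exp (-V x) := by
      ext x
      unfold W
      ring
    have i1 : Integrable fun x : E => k * (c x * Real.exp (-V x)) := hci.const_mul k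
    have i2 : Integrable fun x : E => k * (c x * Real.exp (-V x)) - Q k c x * Real.exp (-V x) := i1.sub hQi
    have i3 : Integrable fun x : E => Real.log (Z k c) * Real.exp (-V x) := hVi.const_mul _
    have i4 : Integrable fun x : E => k * (c x * Real.exp (-V x)) - Q k c x * Real.exp (-V x)
      + Real.log (Z k c) * Real.exp (-V x) := i2.add i3
    rw [h1, integral_sub i4 hVV, integral_add i2 i3, integral_sub i1 hQi,
      integral_const_mul, integral_const_mul, hV1, mul_one]
  have h3 := mass_le hk ha hb h hT hVi hV1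
  unfold J
  rw [e1, e2]
  have e3 : (k * (∫ x : E, c x * Real.exp (-V x)) - (∫ x : E, Q k c x * Real.exp (-V x))
      + Real.log (Z k c) - ∫ x : E, V x * Real.exp (-V x)) / k = (∫ x : E, c x * Real.exp (-V x))
      - (1 / k) * (∫ x : E, Q k c x * Real.exp (-V x)) + (1 / k) * Real.log (Z k c)
      - (1 / k) * ∫ x : E, V x * Real.exp (-V x) := by
    field_simp
  rw [e3]
  nlinarith [h3]

/-- descent for the map `T k V c - ⟪·, g⟫` -/
theorem descentN (hk : 0 < k) (ha : 0 < a) (hb : 0 < b) (hV : PotC V) (h : Qg a b c) (g : E)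
    (hT : Qg a b (fun x => T k V c x - inner ℝ x g)) :
    J k V (fun x => T k V c x - inner ℝ x g) ≤ J k V c - KL k V c / k := by
  have h1 : T0 k V c = fun x => (fun x => (T k V c x - inner ℝ x g) + (V 0 + Q k c 0) / k) x + inner ℝ x g := by
    ext x
    unfold T0 T
    ring
  have h2 : Qa a b (T0 k V c) := by
    refine ⟨g, ?_⟩
    rw [h1]
    have h3 := hT.add_const ((V 0 + Q k c 0) / k)
    have h4 : (fun x => ((fun x => (T k V c x - inner ℝ x g) + (V 0 + Q k c 0) / k) x + inner ℝ x g) - inner ℝ x g)
        = fun x => (T k V c x - inner ℝ x g) + (V 0 + Q k c 0) / k := by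
      ext x
      ring
    rw [h4]
    exact h3
  have h3 := descent hk ha hb hV.toPot h h2
  have h5 : J k V (T0 k V c) = J k V (fun x => T k V c x - inner ℝ x g) := by
    rw [h1, J_tilt k hV ((hT.add_const _).integrable ha hb hV.toPot) g]
    exact J_add_const hk _ hT ha hb hV.int0 hV.one (hT.integrable ha hb hV.toPot)
  rwa [h5] at h3

/-- **small relative entropy along the iteration** of `c ↦ T k V c - ⟪·, G c⟫`, for any invariant class `P` -/
theorem exists_KL_le (hk : 0 < k) (ha : 0 < a) (hb : 0 < b) (hV : PotC V) (G : (E → ℝ) → E)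
    (P : (E → ℝ) → Prop) (c₀ : E → ℝ) (h0 : P c₀)
    (hPT : ∀ c, P c → P (fun x => T k V c x - inner ℝ x (G c))) (hPG : ∀ c, P c → Qg a b c) {ε : ℝ} (hε : 0 < ε) :
    ∃ c, P c ∧ KL k V c ≤ ε := by
  by_contra hcon
  simp only [not_exists, not_and, not_le] at hcon
  set S : (E → ℝ) → (E → ℝ) := fun c => fun x => T k V c x - inner ℝ x (G c) with hS
  have hPi : ∀ i : ℕ, P (S^[i] c₀) := by
    intro i
    induction i with
    | zero => exact h0
    | succ i ih =>
      rw [Function.iterate_succ_apply']
      exact hPT _ ih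
  have hJi : ∀ i : ℕ, J k V (S^[i] c₀) ≤ J k V c₀ - i * (ε / k) := by
    intro i
    induction i with
    | zero => simp
    | succ i ih =>
      rw [Function.iterate_succ_apply']
      have h1 := descentN hk ha hb hV (hPG _ (hPi i)) (G (S^[i] c₀)) (hPG _ (hPT _ (hPi i)))
      have h2 := (hcon _ (hPi i)).le
      have h3 : ε / k ≤ KL k V (S^[i] c₀) / k := by gcongr
      push_cast
      have h4 : J k V (S (S^[i] c₀)) ≤ J k V (S^[i] c₀) - KL k V (S^[i] c₀) / k := h1
      linarith
  set m := gc E k b - Real.log (∫ y : E, Real.exp (-(1 * (1 / b / 2 * ‖y‖ ^ 2)))) with hm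
  obtain ⟨i, hi⟩ := exists_nat_gt ((J k V c₀ - m) / (ε / k))
  have h1 := (hPG _ (hPi i)).J_ge hk ha hb hV.int0 hV.one ((hPG _ (hPi i)).integrable ha hb hV.toPot)
  rw [← hm] at h1
  have h2 := hJi i
  rw [div_lt_iff₀ (by positivity)] at hi
  linarith

end Vale.Agent.P254.X.N1.T290
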