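import Vale.Agent.P254.X.N1.LK
import Vale.Agent.P254.X.N1.Inv
import Vale.Agent.P254.X.N1.Lim
import Vale.Agent.P254.X.N1.Dual
import Vale.Agent.P254.MC.Desc2
import Vale.Agent.P254.MC.Inv570

/-! # P254/X, block N1: `StmtSC → StmtMMC` (helper618): the `C^{2,1}` moment map of every centred
regular potential, from the self-concordance block alone. -/

open MeasureTheory Filter
open scoped Topology

namespace Vale.Agent.P254.X.N1

open Vale.Agent.P227.M Vale.Agent.P227.M.MM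

/-- descent (724's `MC.stmtDescc`, in the names of `N1/Ifc.lean`) -/
theorem stmtDescC : StmtDescC := by
  intro n hn V c₀ C₀ m k hV hcen hm hk hcls hreg ε hε
  obtain ⟨i, hi⟩ := MC.stmtDescc n hn V c₀ C₀ m k hV hcen hm hk
    (fun i => by rw [MC.itKc_eq_N1]; exact MC.clsC_iff.2 (hcls i))
    (fun i => by rw [MC.itKc_eq_N1]; exact hreg i) ε hε
  rw [MC.itKc_eq_N1] at hi
  exact ⟨i, hi⟩

/-- **existence of the moment map of a centred regular potential**, from self-concordance -/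
theorem stmtMMC_of_sc (hSC : StmtSC) : StmtMMC :=
  stmtMMC_of (stmtLIMC_of (stmtLKC_of (stmtInvC hSC) stmtDescC)) stmtDualC

/-- `MMC` and `MC.MMc` are the same structure -/
theorem mmc_iff {n : ℕ} {ψ V : E n → ℝ} {c C M : ℝ} : MMC ψ V c C M ↔ MC.MMc ψ V c C M :=
  ⟨fun h => ⟨h.c_pos, h.C2, h.lower, h.upper, h.lip, h.ma⟩,
    fun h => ⟨h.c_pos, h.C2, h.lower, h.upper, h.lip, h.ma⟩⟩

theorem stmtMMc_of_sc (hSC : StmtSC) : MC.StmtMMc := by
  intro n V c C hV hcen
  obtain ⟨ψ, M, h⟩ := stmtMMC_of_sc hSC n V c C hV hcen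
  exact ⟨ψ, M, mmc_iff.1 h⟩

end Vale.Agent.P254.X.N1
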